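import Vale.Agent.P174.GR.Orbit
import Vale.Agent.P228.Deg.Deg

noncomputable section

open Set Filter MeasureTheory Metric Function Module Vale.Agent.P228
open scoped Topology

namespace Vale.Agent.P174.GR

variable {E : Type*} [NormedAddCommGroup E] [NormedSpace ℝ E] [FiniteDimensional ℝ E]

/-- The Jacobian determinant of an equivariant map is invariant. -/
theorem jdet_equivariant (T : E ≃ₗᵢ[ℝ] E) {F : E → E} (hF : Differentiable ℝ F)
    (h : ∀ x, F (T x) = T (F x)) (x : E) : jdet F (T x) = jdet F x := by
  let L : E →L[ℝ] E := (T.toContinuousLinearEquiv : E →L[ℝ] E)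
  have h1 : HasFDerivAt (fun y => F (T y)) ((fderiv ℝ F (T x)).comp L) x :=
    (hF (T x)).hasFDerivAt.comp x L.hasFDerivAt
  have h2 : HasFDerivAt (fun y => F (T y)) (L.comp (fderiv ℝ F x)) x := by
    have := L.hasFDerivAt.comp x (hF x).hasFDerivAt
    simpa [Function.comp_def, h, L] using this
  have h3 := congrArg ContinuousLinearMap.det (h1.unique h2)
  simp only [ContinuousLinearMap.det, ContinuousLinearMap.toLinearMap_comp,
    LinearMap.det_comp] at h3
  have hL : LinearMap.det (L : E →ₗ[ℝ] E) ≠ 0 := (LinearEquiv.isUnit_det' T.toLinearEquiv).ne_zero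
  rw [mul_comm] at h3
  exact mul_left_cancel₀ hL h3

theorem iterate_equiv {T : E → E} {F : E → E} (h : ∀ x, F (T x) = T (F x)) :
    ∀ (k : ℕ) (x : E), F (T^[k] x) = T^[k] (F x) := by
  intro k
  induction k with
  | zero => intro x; rfl
  | succ k ih => intro x; rw [iterate_succ_apply, ih, h, iterate_succ_apply]

/-- An equivariant map without fixed zeros has degree divisible by `p`. -/
theorem dvd_degree_of_free [Nontrivial E] {p : ℕ} [Fact p.Prime] (T : E ≃ₗᵢ[ℝ] E)
    (hT : ∀ x, (⇑T)^[p] x = x) {F : E → E} (hF : ContDiff ℝ 1 F)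
    (heq : ∀ x, F (T x) = T (F x)) {Ω : Set E} (hΩ : IsOpen Ω) (hΩb : Bornology.IsBounded Ω)
    (hinv : ∀ x ∈ Ω, T x ∈ Ω) (hfr : ∀ x ∈ frontier Ω, F x ≠ 0)
    (hfree : ∀ x ∈ Ω, F x = 0 → T x ≠ x) : (p : ℤ) ∣ degree F Ω 0 := by
  classical
  borelize E
  have hp := (Fact.out : p.Prime)
  have hiso : ∀ (k : ℕ), Isometry (⇑T)^[k] := by
    intro k
    induction k with
    | zero => exact isometry_id
    | succ k ih => rw [iterate_succ]; exact ih.comp T.isometry
  have hinvk : ∀ (k : ℕ) x, x ∈ Ω → (⇑T)^[k] x ∈ Ω := by
    intro k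
    induction k with
    | zero => intro x hx; exact hx
    | succ k ih => intro x hx; rw [iterate_succ_apply]; exact ih _ (hinv x hx)
  let Z : Set E := closure Ω ∩ F ⁻¹' {0}
  have hZc : IsCompact Z :=
    hΩb.isCompact_closure.inter_right (isClosed_singleton.preimage hF.continuous)
  have hZΩ : Z ⊆ Ω := fun x hx => mem_of_notMem_frontier hΩ hx.1 fun h => hfr x h hx.2
  have hrad : ∀ z ∈ Z, ∃ r > 0, ball z (2 * r) ⊆ Ω ∧
      ∀ k, 0 < k → k < p → 4 * r < dist z ((⇑T)^[k] z) := by
    intro z hz
    obtain ⟨ε, hε, hεΩ⟩ := Metric.isOpen_iff.1 hΩ z (hZΩ hz)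
    have hk : ∀ k, 0 < k → k < p → 0 < dist z ((⇑T)^[k] z) := by
      intro k hk hkp
      rw [dist_pos]
      intro he
      apply hfree z (hZΩ hz) hz.2
      have h1 : IsPeriodicPt (⇑T) k z := he.symm
      have h2 : IsPeriodicPt (⇑T) (Nat.gcd k p) z := h1.gcd (hT z)
      rw [Nat.gcd_comm, (Nat.coprime_of_lt_prime hk.ne' hkp hp).gcd_eq_one] at h2
      exact h2
    have hev : ∀ᶠ r in 𝓝[>] (0 : ℝ), 0 < r ∧ 2 * r < ε ∧
        ∀ k ∈ Finset.Ioo 0 p, 4 * r < dist z ((⇑T)^[k] z) := by
      refine Filter.Eventually.and self_mem_nhdsWithin (Filter.Eventually.and ?_ ?_)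
      · exact nhdsWithin_le_nhds ((continuous_const.mul continuous_id).continuousAt.eventually_lt
          continuousAt_const (by simpa using hε))
      · rw [Finset.eventually_all]
        intro k hk'
        rw [Finset.mem_Ioo] at hk'
        exact nhdsWithin_le_nhds ((continuous_const.mul continuous_id).continuousAt.eventually_lt
          continuousAt_const (by simpa using hk k hk'.1 hk'.2))
    obtain ⟨r, hr, hr1, hr2⟩ := hev.exists
    exact ⟨r, hr, (ball_subset_ball hr1.le).trans hεΩ,
      fun k h1 h2 => hr2 k (Finset.mem_Ioo.2 ⟨h1, h2⟩)⟩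
  choose! r hr hrΩ hrd using hrad
  obtain ⟨s, hsZ, hs⟩ := hZc.elim_nhds_subcover (fun z => ball z (r z))
    fun z hz => ball_mem_nhds z (hr z hz)
  -- a lower bound away from the translates of the covering balls
  let U : Set E := ⋃ z ∈ s, ⋃ k ∈ Finset.range p, (⇑T)^[k] ⁻¹' ball z (r z)
  have hUo : IsOpen U := isOpen_biUnion fun z _ => isOpen_biUnion fun k _ =>
    isOpen_ball.preimage (hiso k).continuous
  have hKc : IsCompact (closure Ω \ U) := hΩb.isCompact_closure.diff hUo
  have hKne : ∀ x ∈ closure Ω \ U, F x ≠ 0 := by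
    intro x hx h0
    obtain ⟨z, hz, hxz⟩ := mem_iUnion₂.1 (hs ⟨hx.1, h0⟩)
    exact hx.2 (mem_iUnion₂.2 ⟨z, hz, mem_iUnion₂.2 ⟨0, Finset.mem_range.2 hp.pos, by simpa using hxz⟩⟩)
  obtain ⟨c, hc, hcK⟩ := exists_norm_lower_bound hKc hF.continuous.continuousOn hKne
  obtain ⟨c', hc', hcf⟩ :=
    exists_norm_lower_bound (frontier_isCompact hΩb) hF.continuous.continuousOn hfr
  -- successive equivariant perturbations
  have key : ∀ t : Finset E, t ⊆ s → ∀ δ > 0, ∃ G : E → E, ContDiff ℝ 1 G ∧
      (∀ x, G (T x) = T (G x)) ∧ (∀ x, ‖G x - F x‖ ≤ δ) ∧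
      ∀ z ∈ t, ∀ x ∈ closedBall z (r z), G x = 0 → jdet G x ≠ 0 := by
    intro t
    induction t using Finset.induction with
    | empty => exact fun _ δ hδ => ⟨F, hF, heq, fun x => by simpa using hδ.le, by simp⟩
    | insert z t hzt ih =>
      intro hsub δ hδ
      obtain ⟨G, hG, hGeq, hGd, hGr⟩ :=
        ih ((Finset.subset_insert z t).trans hsub) (δ / 2) (by positivity)
      have hzs : z ∈ s := hsub (Finset.mem_insert_self z t)
      have hrz := hr z (hsZ z hzs)
      let b : ContDiffBump z := ⟨5 / 4 * r z, 2 * r z, by positivity, by linarith⟩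
      let A : E → E → E := fun v x =>
        ∑ k ∈ Finset.range p, b ((⇑T)^[k] x) • (⇑T)^[p - k] v
      have hAeq : ∀ v x, A v (T x) = T (A v x) := by
        intro v x
        let g : ℕ → E := fun k => b ((⇑T)^[k] x) • (⇑T)^[p - k + 1] v
        have h1 : A v (T x) = ∑ k ∈ Finset.range p, g (k + 1) := by
          refine Finset.sum_congr rfl fun k hk => ?_
          have hk' := Finset.mem_range.1 hk
          simp only [g, show p - (k + 1) + 1 = p - k by omega]
          rw [iterate_succ_apply]
        have h2 : T (A v x) = ∑ k ∈ Finset.range p, g k := by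
          simp only [A, map_sum, map_smul]
          exact Finset.sum_congr rfl fun k _ => by simp only [g, iterate_succ_apply']
        have h3 : g p = g 0 := by
          simp only [g, hT, Nat.sub_self, Nat.sub_zero, zero_add, iterate_succ_apply',
            iterate_zero, id_eq]
        have h4 := Finset.sum_range_succ' g p
        rw [Finset.sum_range_succ, h3] at h4
        rw [h1, h2]
        exact (add_right_cancel h4).symm
      let P : E → E → E := fun v x => G x + A v x
      have hP : ContDiff ℝ 1 fun q : E × E => P q.1 q.2 := by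
        have hTk : ∀ k : ℕ, ContDiff ℝ 1 ((⇑T)^[k]) := by
          intro k
          induction k with
          | zero => exact contDiff_id
          | succ k ihk => rw [iterate_succ]; exact ihk.comp T.toContinuousLinearEquiv.contDiff
        refine (hG.comp contDiff_snd).add (ContDiff.sum fun k _ => ?_)
        exact ((b.contDiff.comp ((hTk k).comp contDiff_snd))).smul ((hTk _).comp contDiff_fst)
      have hPv : ∀ v, ContDiff ℝ 1 (P v) := fun v =>
        hP.comp (contDiff_const.prodMk contDiff_id)
      have hAb : ∀ v x, ‖A v x‖ ≤ p * ‖v‖ := by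
        intro v x
        refine (norm_sum_le _ _).trans ((Finset.sum_le_card_nsmul _ _ ‖v‖ fun k _ => ?_).trans
          (by simp))
        rw [norm_smul, Real.norm_eq_abs, abs_of_nonneg b.nonneg]
        have : ‖(⇑T)^[p - k] v‖ = ‖v‖ := by
          clear_value b
          induction p - k generalizing v with
          | zero => rfl
          | succ j ihj => rw [iterate_succ_apply, ihj, T.norm_map]
        rw [this]
        exact mul_le_of_le_one_left (norm_nonneg v) b.le_one
      have hnear : ∀ v, ∀ x ∈ closedBall z (r z), P v =ᶠ[𝓝 x] fun y => G y + v := by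
        intro v x hx
        have hxb : x ∈ ball z (5 / 4 * r z) :=
          closedBall_subset_ball (by linarith) hx
        filter_upwards [isOpen_ball.mem_nhds hxb] with y hy
        simp only [P, A]
        rw [Finset.sum_eq_single 0]
        · have : b ((⇑T)^[0] y) = 1 := b.one_of_mem_closedBall (by
            simpa using ball_subset_closedBall hy)
          rw [this, one_smul, Nat.sub_zero, hT]
        · intro k hk hk0
          have hd := hrd z (hsZ z hzs) k (Nat.pos_of_ne_zero hk0) (Finset.mem_range.1 hk)
          have h0 : b ((⇑T)^[k] y) = 0 := b.zero_of_le_dist (by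
            have h1 : dist ((⇑T)^[k] y) ((⇑T)^[k] z) = dist y z := (hiso k).dist_eq y z
            have h2 := dist_triangle z ((⇑T)^[k] y) ((⇑T)^[k] z)
            rw [mem_ball] at hy
            change 2 * r z ≤ _
            linarith [dist_comm z ((⇑T)^[k] y)])
          rw [h0, zero_smul]
        · simp [hp.pos]
      have hP0 : P 0 = G := by
        funext x
        have : ∀ k : ℕ, (⇑T)^[k] (0 : E) = 0 := fun k => iterate_fixed T.map_zero k
        simp [P, A, this]
      have hjc : Continuous fun q : E × E => jdet (P q.1) q.2 := by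
        have he : (fun q : E × E => jdet (P q.1) q.2) = fun q : E × E =>
            ((fderiv ℝ (fun q : E × E => P q.1 q.2) q).comp
              (ContinuousLinearMap.inr ℝ E E)).det := by
          funext q
          have h1 := (hP.differentiable one_ne_zero q).hasFDerivAt.comp q.2
            (hasFDerivAt_prodMk_right (𝕜 := ℝ) q.1 q.2)
          simp only [jdet]
          rw [show fderiv ℝ (P q.1) q.2 = _ from h1.fderiv]
        rw [he]
        exact ContinuousLinearMap.continuous_det.comp
          ((hP.continuous_fderiv one_ne_zero).clm_comp continuous_const)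
      have hev : ∀ᶠ v in 𝓝 (0 : E), ∀ w ∈ t, ∀ x ∈ closedBall w (r w),
          P v x = 0 → jdet (P v) x ≠ 0 := by
        rw [Finset.eventually_all]
        intro w hw
        refine (isCompact_closedBall w (r w)).eventually_forall_of_forall_eventually fun x hx => ?_
        by_cases h0 : G x = 0
        · have hne : jdet (P (0, x).1) (0, x).2 ≠ 0 := by
            simpa [hP0] using hGr w hw x hx h0
          filter_upwards [hjc.continuousAt.eventually_ne hne] with q hq using fun _ => hq
        · have hne : P (0, x).1 (0, x).2 ≠ 0 := by simpa [hP0] using h0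
          filter_upwards [hP.continuous.continuousAt.eventually_ne hne] with q hq using
            fun h => absurd h hq
      obtain ⟨η, hη, hηev⟩ := Metric.eventually_nhds_iff.1 hev
      obtain ⟨q, hq, hqr, -⟩ := exists_regular_near (Measure.addHaar : Measure E) hG univ 0
        (δ := min η (δ / (2 * (p + 1)))) (by positivity) measure_empty
      rw [sub_zero] at hq
      refine ⟨P (-q), hPv _, fun x => ?_, fun x => ?_, ?_⟩
      · simp only [P, hGeq, hAeq, map_add]
      · have h1 := hAb (-q) x
        rw [norm_neg] at h1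
        have h2 : ‖q‖ * (2 * (p + 1)) ≤ δ := by
          rw [← le_div_iff₀ (by positivity)]
          exact (hq.le.trans (min_le_right _ _))
        calc ‖P (-q) x - F x‖ = ‖(G x - F x) + A (-q) x‖ := by simp only [P]; congr 1; abel
          _ ≤ ‖G x - F x‖ + ‖A (-q) x‖ := norm_add_le _ _
          _ ≤ δ := by nlinarith [hGd x, norm_nonneg q]
      · intro w hw
        rcases Finset.mem_insert.1 hw with rfl | hwt
        · intro x hx h0
          have he := hnear (-q) x hx
          have hval : G x = q := by
            have := he.eq_of_nhds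
            rw [h0] at this
            simpa [← sub_eq_add_neg, sub_eq_zero] using this.symm
          rw [jdet, he.fderiv_eq, fderiv_add_const]
          exact hqr x (by simp) hval
        · refine hηev ?_ w hwt
          rw [dist_zero_right, norm_neg]
          exact hq.trans_le (min_le_left _ _)
  obtain ⟨G, hG, hGeq, hGd, hGr⟩ := key s subset_rfl (min c c' / 4) (by positivity)
  have hzero : ∀ x ∈ closure Ω, G x = 0 → ∃ z ∈ s, ∃ k, k < p ∧ (⇑T)^[k] x ∈ ball z (r z) := by
    intro x hx h0
    by_contra hne
    push Not at hne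
    have hxU : x ∉ U := by
      simp only [U, mem_iUnion, Finset.mem_range, not_exists, mem_preimage]
      exact fun z hz k hk => hne z hz k hk
    have h1 := hcK x ⟨hx, hxU⟩
    have h2 := hGd x
    rw [h0, zero_sub, norm_neg] at h2
    rw [sub_zero] at h1
    linarith [min_le_left c c']
  have hjk : ∀ (k : ℕ) x, jdet G ((⇑T)^[k] x) = jdet G x := by
    intro k
    induction k with
    | zero => intro x; rfl
    | succ k ihk =>
      intro x
      rw [iterate_succ_apply, ihk, jdet_equivariant T (hG.differentiable one_ne_zero) hGeq]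
  have hreg : Regular G Ω 0 := by
    intro x hx h0
    obtain ⟨z, hz, k, hk, hkb⟩ := hzero x hx h0
    rw [← hjk k x]
    refine hGr z hz _ (ball_subset_closedBall hkb) ?_
    rw [iterate_equiv hGeq, h0]
    exact iterate_fixed T.map_zero k
  have happ : IsApprox F Ω 0 G 0 := by
    refine ⟨hG, hreg, fun x hx => ?_⟩
    have h1 := hcf x hx
    have h2 := hGd x
    simp only [sub_zero] at h1 ⊢
    linarith [min_le_right c c']
  rw [degree_eq hΩ hΩb hF.continuous.continuousOn happ, signSum]
  have hfin : (Ω ∩ G ⁻¹' {0}).Finite :=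
    (finite_preimage hG hΩb hreg).subset (inter_subset_inter_left _ subset_closure)
  rw [finsum_mem_eq_finite_toFinset_sum _ hfin]
  refine sum_eq_zero_of_free (⇑T) hT _ (fun x => by
    rw [jdet_equivariant T (hG.differentiable one_ne_zero) hGeq]) _ ?_ ?_
  · intro x hx
    simp only [Finite.mem_toFinset, mem_inter_iff, mem_preimage, mem_singleton_iff] at hx ⊢
    exact ⟨hinv x hx.1, by rw [hGeq, hx.2, map_zero]⟩
  · intro x hx hfix
    simp only [Finite.mem_toFinset, mem_inter_iff, mem_preimage, mem_singleton_iff] at hx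
    obtain ⟨z, hz, k, hk, hkb⟩ := hzero x (subset_closure hx.1) hx.2
    rw [iterate_fixed hfix k, mem_ball] at hkb
    have hd := hrd z (hsZ z hz) 1 one_pos hp.one_lt
    rw [iterate_one] at hd
    have h1 := dist_triangle z x (T z)
    have h2 : dist x (T z) = dist x z := by rw [← hfix, T.dist_map, hfix]
    rw [dist_comm z x, h2] at h1
    linarith [hr z (hsZ z hz)]

end Vale.Agent.P174.GR
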