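import Vale.Agent.P174.GR.Sign
import Vale.Agent.P174.GR.Free

noncomputable section

open Set Filter Metric Function Vale.Agent.P228
open scoped Topology Matrix.Norms.Frobenius ComplexConjugate

namespace Vale.Agent.P174.GR

variable {n p : ℕ}

theorem prod_zpow_sum {ι G : Type} [CommGroup G] (s : Finset ι) (a : G) (f : ι → ℤ) :
    ∏ i ∈ s, a ^ f i = a ^ ∑ i ∈ s, f i := by
  classical
  induction s using Finset.induction with
  | empty => simp
  | insert i s hi ih => rw [Finset.prod_insert hi, Finset.sum_insert hi, ih, zpow_add]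

/-- The torus solutions of the exponent system. -/
def torusSol (A : Matrix (Fin n) (Fin n) ℤ) : Subgroup (Fin n → Circle) :=
  MonoidHom.ker
    ({ toFun := fun v i => ∏ j, v j ^ A i j
       map_one' := by funext i; simp
       map_mul' := fun u v => by funext i; simp [mul_zpow, Finset.prod_mul_distrib] } :
      (Fin n → Circle) →* (Fin n → Circle))

theorem mem_torusSol {A : Matrix (Fin n) (Fin n) ℤ} {v : Fin n → Circle} :
    v ∈ torusSol A ↔ ∀ i, ∏ j, v j ^ A i j = 1 := by
  simp [torusSol, MonoidHom.mem_ker, funext_iff]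

theorem torusSol_pow (A : Matrix (Fin n) (Fin n) ℤ) {v : Fin n → Circle} (hv : v ∈ torusSol A) :
    v ^ A.det.natAbs = 1 := by
  funext l
  have h1 : v l ^ A.det = 1 := by
    have h2 : ∏ i, (∏ j, v j ^ A i j) ^ A.adjugate l i = 1 :=
      Finset.prod_eq_one fun i _ => by rw [mem_torusSol.1 hv i, one_zpow]
    simp only [← Finset.prod_zpow, ← zpow_mul] at h2
    rw [Finset.prod_comm] at h2
    have h3 : ∀ j, ∑ i, A i j * A.adjugate l i = if l = j then A.det else 0 := by
      intro j
      have h := congrFun (congrFun (Matrix.adjugate_mul A) l) j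
      simp only [Matrix.mul_apply, Matrix.smul_apply, Matrix.one_apply, smul_eq_mul, mul_ite,
        mul_one, mul_zero] at h
      rw [← h]
      exact Finset.sum_congr rfl fun i _ => mul_comm _ _
    simp only [prod_zpow_sum, h3] at h2
    simpa [Finset.prod_eq_single l] using h2
  rcases Int.natAbs_eq A.det with h | h <;> rw [h] at h1
  · simpa using h1
  · simpa using h1

theorem torusSol_finite (A : Matrix (Fin n) (Fin n) ℤ) (hA : A.det ≠ 0) :
    Finite (torusSol A) := by
  classical
  have hd : 0 < A.det.natAbs := Int.natAbs_pos.2 hA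
  let R : Finset ℂ := (Polynomial.nthRoots A.det.natAbs (1 : ℂ)).toFinset
  let f : torusSol A → (Fin n → R) := fun v j => ⟨(v.1 j : ℂ), by
    rw [Multiset.mem_toFinset, Polynomial.mem_nthRoots hd, ← Circle.coe_pow]
    rw [show v.1 j ^ A.det.natAbs = (v.1 ^ A.det.natAbs) j from rfl, torusSol_pow A v.2]
    simp⟩
  refine Finite.of_injective f fun u v h => ?_
  apply Subtype.ext
  funext j
  exact Circle.coe_injective (congrArg Subtype.val (congrFun h j) :)

theorem torusSol_card (A : Matrix (Fin n) (Fin n) ℤ) [Fact p.Prime]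
    (hA : ((A.det : ℤ) : ZMod p) ≠ 0) : ¬ p ∣ Nat.card (torusSol A) := by
  have hA0 : A.det ≠ 0 := fun h => hA (by simp [h])
  have := torusSol_finite A hA0
  intro hp
  obtain ⟨g, hg⟩ := exists_prime_orderOf_dvd_card' p hp
  have h1 : g ^ A.det.natAbs = 1 := Subtype.ext (by simpa using torusSol_pow A g.2)
  have h2 : p ∣ A.det.natAbs := hg ▸ orderOf_dvd_of_pow_eq_one h1
  apply hA
  rw [ZMod.intCast_zmod_eq_zero_iff_dvd]
  exact Int.natCast_dvd.2 h2

variable {q : ℕ} [Fact q.Prime]

/-- The exponent matrix. -/
abbrev expMat (W : Fin n → List (Letter n p)) : Matrix (Fin n) (Fin n) ℤ :=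
  Matrix.of fun i j => expL (W i) j

/-- The diagonal point given by torus solutions. -/
def emb {W : Fin n → List (Letter n p)} (c : Fin p → torusSol (expMat W)) : Sp n p :=
  dg fun j q => ((c q).1 j : ℂ)

/-- The perturbed system map. -/
def pertMap (W : Fin n → List (Letter n p)) (ε : ℝ) (x : Sp n p) : Sp n p :=
  sysMap W x + ε • offP x

variable {W : Fin n → List (Letter n p)}

theorem emb_injective : Function.Injective (emb (W := W)) := by
  intro c d h
  funext q; apply Subtype.ext; funext j
  have h1 := congrFun (congrFun (congrFun h j) q) q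
  simpa [emb, dg_apply, Circle.coe_inj] using h1

theorem evC_torus (v : torusSol (expMat W)) (i : Fin n) :
    evC (W i) (fun j => (v.1 j : ℂ)) = 1 := by
  rw [evC_circle]
  simp [show ∏ j, v.1 j ^ expL (W i) j = 1 from mem_torusSol.1 v.2 i]

theorem evalL_emb (hW : ∀ i, OneL (W i)) (c : Fin p → torusSol (expMat W)) (i : Fin n) :
    evalL (W i) (emb c) = 1 := by
  rw [emb, evalL_dg (hW i), ← Matrix.diagonal_one]
  exact congrArg Matrix.diagonal (funext fun q => evC_torus (c q) i)

theorem star_emb_mul (c : Fin p → torusSol (expMat W)) (i : Fin n) :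
    star (emb c i) * emb c i = 1 := by
  simp only [emb, dg_apply, Matrix.star_eq_conjTranspose, Matrix.diagonal_conjTranspose,
    Matrix.diagonal_mul_diagonal]
  rw [← Matrix.diagonal_one]
  exact congrArg Matrix.diagonal (funext fun q => by
    simp [RCLike.star_def, RCLike.conj_mul, Circle.norm_coe])

theorem offP_emb (c : Fin p → torusSol (expMat W)) : offP (emb c) = 0 := by
  funext j; ext a b
  simp only [offP_apply, emb, dg_apply, Pi.zero_apply, Matrix.zero_apply]
  split_ifs with h <;> simp [h]

theorem clock_emb (c : Fin p → torusSol (expMat W)) : piIso (clock q) (emb c) = emb c :=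
  clock_fixed_of_offP (offP_emb c)

theorem sysMap_emb (hW : ∀ i, OneL (W i)) (c : Fin p → torusSol (expMat W)) :
    sysMap W (emb c) = 0 := by
  funext i
  simp [sysMap, evalL_emb hW, star_emb_mul]

theorem emb_mem_sysDom (hW : ∀ i, OneL (W i)) (c : Fin p → torusSol (expMat W)) :
    emb c ∈ sysDom W := fun i => by simp [star_emb_mul, evalL_emb hW]

theorem exists_emb_of_fixed (hpq : p ≤ q) (hW : ∀ i, OneL (W i)) :
    ∀ x, x ∈ sysDom W → sysMap W x = 0 → piIso (clock q) x = x → ∃ c, emb (W := W) c = x := by
  have hUL : ∀ i, UL (W i) := fun i c hc => by rw [hW i c hc]; exact one_mem _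
  let A : Matrix (Fin n) (Fin n) ℤ := expMat W
  intro x hx h0 hfix
  have hoff := offP_eq_zero_of_fixed hpq hfix
  obtain ⟨hu, h1⟩ := sysMap_eq_zero hUL h0
  let a : Fin n → Fin p → ℂ := fun j q => x j q q
  have hxa : x = dg a := by
    funext j; ext q r
    by_cases h : q = r
    · subst h; simp [dg_apply, a]
    · have h' := congrFun (congrFun (congrFun hoff j) q) r
      rw [offP_apply, if_neg h] at h'
      rw [h']; simp [dg_apply, h]
  have hnorm : ∀ j q, ‖a j q‖ = 1 := by
    intro j q
    have h := congrFun (congrFun (Unitary.mem_iff.1 (hu j)).1 q) q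
    rw [hxa] at h
    simp [dg_apply, Matrix.star_eq_conjTranspose, RCLike.conj_mul] at h
    rcases h with h | h
    · exact_mod_cast h
    · have h2 : ‖a j q‖ = -1 := by exact_mod_cast h
      linarith [norm_nonneg (a j q)]
  let v : Fin p → Fin n → Circle := fun q j =>
    ⟨a j q, mem_sphere_zero_iff_norm.2 (hnorm j q)⟩
  have hv : ∀ q, v q ∈ torusSol A := by
    intro q
    rw [mem_torusSol]
    intro i
    apply Circle.coe_injective
    have h := congrFun (congrFun (h1 i (by linarith [(hx i).2])) q) q
    rw [hxa, evalL_dg (hW i)] at h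
    simp only [Matrix.diagonal_apply_eq, Matrix.one_apply_eq] at h
    rw [Circle.coe_one, ← h]
    exact (evC_circle (W i) (v q)).symm
  exact ⟨fun q => ⟨v q, hv q⟩, hxa.symm⟩

theorem diag_deriv (hW : ∀ i, OneL (W i)) (c : Fin p → torusSol (expMat W))
    (u : Fin n → Fin p → ℂ) :
    fderiv ℝ (sysMap W) (emb c) (dg fun j q => ((c q).1 j : ℂ) * u j q) =
      fderiv ℝ (sysMap W) (fun _ => (1 : Mat p)) (dg u) := by
  let F : Sp n p → Sp n p := sysMap W
  let one : Sp n p := fun _ => 1
  have hF : ContDiff ℝ 1 F := contDiff_sysMap W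
  have hFd : Differentiable ℝ F := hF.differentiable one_ne_zero
  let a : Fin n → Fin p → ℂ := fun j q => ((c q).1 j : ℂ)
  let Lm : (Fin n → Fin p → ℂ) →L[ℝ] (Fin n → Fin p → ℂ) :=
    ContinuousLinearMap.mul ℝ _ a
  have heq : ∀ y, F (dg (a * y)) = F (dg y) := by
    intro y
    funext i
    have h1 : evalL (W i) (dg (a * y)) = evalL (W i) (dg y) := by
      rw [evalL_dg (hW i), evalL_dg (hW i)]
      refine congrArg Matrix.diagonal (funext fun q => ?_)
      change evC (W i) (fun j => a j q * y j q) = evC (W i) (fun j => y j q)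
      rw [evC_mul, evC_torus (c q) i, one_mul]
    have h2 : star (dg (a * y) i) * dg (a * y) i = star (dg y i) * dg y i := by
      simp only [dg_apply, Matrix.star_eq_conjTranspose, Matrix.diagonal_conjTranspose,
        Matrix.diagonal_mul_diagonal]
      refine congrArg Matrix.diagonal (funext fun q => ?_)
      simp only [Pi.star_apply, Pi.mul_apply, RCLike.star_def, map_mul]
      have : conj (a i q) * a i q = 1 := by simp [a, RCLike.conj_mul, Circle.norm_coe]
      calc conj (a i q) * conj (y i q) * (a i q * y i q)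
          = (conj (a i q) * a i q) * (conj (y i q) * y i q) := by ring
        _ = _ := by rw [this, one_mul]
    simp only [F, sysMap, h1, h2]
  let y1 : Fin n → Fin p → ℂ := fun _ _ => 1
  have he : dg (Lm y1) = emb c := by
    simp only [emb, Lm, ContinuousLinearMap.mul_apply']
    congr 1
    funext j q; simp [y1, a]
  have he1 : dg y1 = one := by
    funext j; simp [one, dg_apply, y1]
  have hl : HasFDerivAt (fun y => F (dg (a * y)))
      ((fderiv ℝ F (emb c)).comp (dg.comp Lm)) y1 := by
    have := (hFd (dg (Lm y1))).hasFDerivAt.comp y1 ((dg.comp Lm).hasFDerivAt (x := y1))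
    rw [he] at this
    exact this
  have hr : HasFDerivAt (fun y => F (dg (a * y))) ((fderiv ℝ F one).comp dg) y1 := by
    have := (hFd (dg y1)).hasFDerivAt.comp y1 (dg.hasFDerivAt (x := y1))
    rw [he1] at this
    rw [show (fun y => F (dg (a * y))) = fun y => F (dg y) from funext heq]
    exact this
  exact congrArg (fun L : (Fin n → Fin p → ℂ) →L[ℝ] Sp n p => L u) (hl.unique hr)

/-- Diagonal entries, rescaled. -/
def scaleDiag (b : Fin n → Fin p → ℂ) : Sp n p →ₗ[ℝ] Sp n p where
  toFun x := dg (fun j t => b j t * x j t t) + offP x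
  map_add' x y := by
    funext j; ext t r
    by_cases h : t = r
    · subst h; simp [dg_apply, offP_apply, mul_add]
    · simp [dg_apply, offP_apply, h]
  map_smul' c x := by
    funext j; ext t r
    by_cases h : t = r
    · subst h; simp [dg_apply, offP_apply, mul_left_comm]
    · simp [dg_apply, offP_apply, h]

theorem scaleDiag_comp (b b' : Fin n → Fin p → ℂ) :
    scaleDiag b ∘ₗ scaleDiag b' = scaleDiag (fun j t => b j t * b' j t) := by
  refine LinearMap.ext fun x => ?_
  funext j; ext t r
  by_cases h : t = r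
  · subst h; simp [scaleDiag, dg_apply, offP_apply, mul_assoc]
  · simp [scaleDiag, dg_apply, offP_apply, h]

theorem diag_deriv_injective (hW : ∀ i, OneL (W i)) (hA0 : (expMat W).det ≠ 0)
    (c : Fin p → torusSol (expMat W)) (k : Sp n p) (hk : offP k = 0)
    (hk0 : fderiv ℝ (sysMap W) (emb c) k = 0) : k = 0 := by
  let u : Fin n → Fin p → ℂ := fun j t => conj ((c t).1 j : ℂ) * k j t t
  have hk' : dg (fun j t => ((c t).1 j : ℂ) * u j t) = k := by
    funext j; ext t r
    by_cases h : t = r
    · subst h
      simp [u, dg_apply, ← mul_assoc, RCLike.mul_conj, Circle.norm_coe]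
    · have h' := congrFun (congrFun (congrFun hk j) t) r
      rw [offP_apply, if_neg h] at h'
      simp [dg_apply, h, h']
  have h := diag_deriv hW c u
  rw [hk', hk0] at h
  have hu0 := deriv_one_injective hW hA0 _ h.symm
  have hu : u = 0 := by
    funext j t
    simpa [dg_apply] using congrFun (congrFun (congrFun hu0 j) t) t
  rw [← hk', hu]
  funext j; ext t r
  by_cases h : t = r <;> simp [dg_apply, h]

theorem deriv_clock (hW : ∀ i, OneL (W i)) (c : Fin p → torusSol (expMat W)) :
    ∀ k, fderiv ℝ (sysMap W) (emb c) (piIso (clock q) k) =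
      piIso (clock q) (fderiv ℝ (sysMap W) (emb c) k) := by
  let F : Sp n p → Sp n p := sysMap W
  have hFd : Differentiable ℝ F := (contDiff_sysMap W).differentiable one_ne_zero
  let Tc : Sp n p ≃ₗᵢ[ℝ] Sp n p := piIso (clock q)
  let D : Sp n p →L[ℝ] Sp n p := fderiv ℝ F (emb c)
  intro k
  let L : Sp n p →L[ℝ] Sp n p := LinearMap.toContinuousLinearMap Tc.toLinearEquiv.toLinearMap
  have h1 : HasFDerivAt (fun y => F (Tc y)) (D.comp L) (emb c) := by
    have := (hFd (Tc (emb c))).hasFDerivAt.comp (emb c) (L.hasFDerivAt (x := emb c))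
    rw [clock_emb] at this
    exact this
  have h2 : HasFDerivAt (fun y => F (Tc y)) (L.comp D) (emb c) := by
    rw [show (fun y => F (Tc y)) = fun y => Tc (F y) from
      funext fun y => sysMap_respects (clock q) clock_respects hW y]
    exact L.hasFDerivAt.comp (emb c) (hFd (emb c)).hasFDerivAt
  exact congrArg (fun M : Sp n p →L[ℝ] Sp n p => M k) (h1.unique h2)

theorem pert_jdet_ne (hpq : p ≤ q) (hW : ∀ i, OneL (W i)) (hA0 : (expMat W).det ≠ 0) (ε : ℝ)
    (c : Fin p → torusSol (expMat W))
    (hε : ¬ Module.End.HasEigenvalue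
      ((fderiv ℝ (sysMap W) (emb c) : Sp n p →L[ℝ] Sp n p) : Module.End ℝ (Sp n p)) (-ε)) :
    jdet (pertMap W ε) (emb c) ≠ 0 := by
  let A : Matrix (Fin n) (Fin n) ℤ := expMat W
  let F : Sp n p → Sp n p := sysMap W
  let one : Sp n p := fun _ => 1
  have hF : ContDiff ℝ 1 F := contDiff_sysMap W
  have hFd : Differentiable ℝ F := hF.differentiable one_ne_zero
  let Tc : Sp n p ≃ₗᵢ[ℝ] Sp n p := piIso (clock q)
  let D : Sp n p →L[ℝ] Sp n p := fderiv ℝ F (emb c)
  let P : Sp n p →L[ℝ] Sp n p := offP
  have hker : ∀ k : Sp n p, (D + ε • P) k = 0 → k = 0 := by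
    intro k hk
    have hcomm : ∀ k, D (Tc k) = Tc (D k) := deriv_clock hW c
    obtain ⟨m, hm⟩ := offP_eq_self_of_range (q := q) hpq k
    let kd : Sp n p := k - offP k
    have hoo : offP (offP k) = offP k := by
      funext j; ext a b
      simp only [offP_apply]
      split_ifs <;> rfl
    have hkd : offP kd = 0 := by simp [kd, map_sub, hoo]
    have hDkd : offP (D kd) = 0 := offP_eq_zero_of_fixed hpq (by
      change Tc (D kd) = D kd
      rw [← hcomm, clock_fixed_of_offP hkd])
    have hDko : offP (D (offP k)) = D (offP k) := by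
      rw [← hm, map_sub, hcomm]
      exact offP_range_fixed (D m)
    have hk' : D kd + D (offP k) + ε • offP k = 0 := by
      rw [← map_add, show kd + offP k = k by simp [kd]]
      simpa [P] using hk
    have hko' : D (offP k) + ε • offP k = 0 := by
      have h := congrArg offP hk'
      simpa [map_add, hDkd, hDko, hoo] using h
    have hko : offP k = 0 := by
      by_contra hne
      apply hε
      refine Module.End.hasEigenvalue_of_hasEigenvector (x := offP k) ⟨?_, hne⟩
      rw [Module.End.mem_eigenspace_iff, neg_smul]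
      exact eq_neg_of_add_eq_zero_left hko'
    have h1 : D kd = 0 := by simpa [hko] using hk'
    have h2 := diag_deriv_injective hW hA0 c kd hkd h1
    simpa [kd, hko] using h2
  have e : fderiv ℝ (pertMap W ε) (emb c) = D + ε • P :=
    ((hFd (emb c)).hasFDerivAt.add ((offP (n := n) (p := p)).hasFDerivAt.const_smul ε)).fderiv
  intro h0
  have h0' : (D + ε • P).det = 0 :=
    (congrArg ContinuousLinearMap.det e).symm.trans h0
  exact LinearMap.det_eq_zero_iff_ker_ne_bot.1 h0' (LinearMap.ker_eq_bot'.2 hker)

/-- All nondegenerate perturbed torus solutions have the same index. -/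
theorem pert_sign (hpq : 2 * p < q) (hW : ∀ i, OneL (W i)) (ε : ℝ)
    (c : Fin p → torusSol (expMat W)) (hne : jdet (pertMap W ε) (emb c) ≠ 0) :
    SignType.sign (jdet (pertMap W ε) (emb c)) = SignType.sign (LinearMap.det
      ((fderiv ℝ (sysMap W) (fun _ => (1 : Mat p)) : Sp n p →L[ℝ] Sp n p).toLinearMap ∘ₗ
        (LinearMap.id - (offP : Sp n p →L[ℝ] Sp n p).toLinearMap) +
        (offP : Sp n p →L[ℝ] Sp n p).toLinearMap)) := by
  let D : Sp n p →L[ℝ] Sp n p := fderiv ℝ (sysMap W) (emb c)
  let D1 : Sp n p →L[ℝ] Sp n p := fderiv ℝ (sysMap W) (fun _ => (1 : Mat p))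
  let P : Sp n p →ₗ[ℝ] Sp n p := (offP : Sp n p →L[ℝ] Sp n p).toLinearMap
  let T : Sp n p →ₗ[ℝ] Sp n p := D.toLinearMap + ε • P
  let T0 : Sp n p →ₗ[ℝ] Sp n p := D1.toLinearMap ∘ₗ (LinearMap.id - P) + P
  let T1 : Sp n p →ₗ[ℝ] Sp n p := LinearMap.id - P + T ∘ₗ P
  let sq : Fin n → Fin p → ℂ := fun j t =>
    (Circle.exp (-(Complex.arg ((c t).1 j) / 2)) : ℂ)
  let R := scaleDiag (n := n) (p := p) sq
  have hT : ∀ k, T (piIso (clock q) k) = piIso (clock q) (T k) := by
    intro k
    simp only [T, P, LinearMap.add_apply, LinearMap.smul_apply, ContinuousLinearMap.coe_coe,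
      offP_clock, map_add, map_smul]
    rw [show D (piIso (clock q) k) = piIso (clock q) (D k) from deriv_clock hW c k]
  have hsq : ∀ j t, sq j t * sq j t = conj ((c t).1 j : ℂ) := by
    intro j t
    rw [← Circle.coe_inv_eq_conj, ← Circle.coe_mul, ← Circle.exp_add, ← neg_add, add_halves]
    conv_rhs => rw [← Circle.exp_arg ((c t).1 j)]
    rw [Circle.exp_neg]
  have hoo : ∀ k, P (P k) = P k := by
    intro k
    funext j; ext a b
    simp only [P, ContinuousLinearMap.coe_coe, offP_apply]
    split_ifs <;> rfl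
  have hdec : T = T0 ∘ₗ R ∘ₗ R ∘ₗ T1 := by
    refine LinearMap.ext fun k => ?_
    let m := T1 k
    have hm1 : m - P m = k - P k := by
      have hTP : P (T (P k)) = T (P k) := by
        obtain ⟨s, hs⟩ := offP_eq_self_of_range (n := n) (p := p) (q := q) (by omega) k
        have hs' : piIso (clock q) s - s = P k := hs
        rw [← hs', map_sub, hT]
        exact offP_range_fixed (T s)
      simp only [m, T1, LinearMap.add_apply, LinearMap.sub_apply, LinearMap.id_apply,
        LinearMap.comp_apply, map_add, map_sub, hoo, hTP, sub_self, zero_add]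
      abel
    have hm2 : P m = T (P k) := by
      have hTP : P (T (P k)) = T (P k) := by
        obtain ⟨s, hs⟩ := offP_eq_self_of_range (n := n) (p := p) (q := q) (by omega) k
        have hs' : piIso (clock q) s - s = P k := hs
        rw [← hs', map_sub, hT]
        exact offP_range_fixed (T s)
      simp only [m, T1, LinearMap.add_apply, LinearMap.sub_apply, LinearMap.id_apply,
        LinearMap.comp_apply, map_add, map_sub, hoo, hTP, sub_self, zero_add]
    have hRR : R (R m) = scaleDiag (fun j t => conj ((c t).1 j : ℂ)) m := by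
      have h := LinearMap.congr_fun (scaleDiag_comp (n := n) (p := p) sq sq) m
      rw [show (fun j t => sq j t * sq j t) = fun j t => conj ((c t).1 j : ℂ) from
        funext fun j => funext fun t => hsq j t] at h
      exact h
    simp only [LinearMap.comp_apply]
    rw [show T1 k = m from rfl, hRR]
    let u : Fin n → Fin p → ℂ := fun j t => conj ((c t).1 j : ℂ) * m j t t
    have hs1 : scaleDiag (fun j t => conj ((c t).1 j : ℂ)) m = dg u + P m := rfl
    have hPdg : P (dg u) = 0 := by
      funext j; ext a b
      simp only [P, ContinuousLinearMap.coe_coe, offP_apply, dg_apply]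
      split_ifs with h <;> simp [h]
    have hdiag : dg (fun j t => ((c t).1 j : ℂ) * u j t) = k - P k := by
      rw [← hm1]
      funext j; ext a b
      by_cases h : a = b
      · subst h
        simp [u, P, dg_apply, offP_apply, ← mul_assoc, RCLike.mul_conj, Circle.norm_coe]
      · simp [P, dg_apply, offP_apply, h]
    have hform : D (k - P k) = D1 (dg u) := by
      rw [← hdiag]; exact diag_deriv hW c u
    simp only [T0, hs1, LinearMap.add_apply, LinearMap.comp_apply, LinearMap.sub_apply,
      LinearMap.id_apply, map_add, hPdg, hoo, sub_zero, zero_add,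
      ContinuousLinearMap.coe_coe, add_sub_cancel_right]
    rw [← hform, hm2]
    simp only [T, LinearMap.add_apply, LinearMap.smul_apply, ContinuousLinearMap.coe_coe,
      map_sub, hoo]
    abel
  have e : jdet (pertMap W ε) (emb c) = LinearMap.det T :=
    congrArg ContinuousLinearMap.det
      ((((contDiff_sysMap W).differentiable one_ne_zero (emb c)).hasFDerivAt.add
        ((offP (n := n) (p := p)).hasFDerivAt.const_smul ε)).fderiv :
      fderiv ℝ (pertMap W ε) (emb c) = D + ε • (offP : Sp n p →L[ℝ] Sp n p))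
  rw [hdec, LinearMap.det_comp, LinearMap.det_comp, LinearMap.det_comp] at e
  have h1 : 0 ≤ LinearMap.det T1 := det_offdiag_nonneg hpq T hT
  have h2 : LinearMap.det R ≠ 0 := fun h => hne (by rw [e, h]; simp)
  have h3 : 0 < LinearMap.det T1 := h1.lt_of_ne' fun h => hne (by rw [e, h]; simp)
  rw [e, sign_mul, ← mul_assoc (LinearMap.det R), sign_pos (mul_pos (mul_self_pos.2 h2) h3),
    mul_one]

end Vale.Agent.P174.GR
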