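import Vale.Agent.P228.Deg.Deg

noncomputable section

open Set Filter MeasureTheory Metric Function Vale.Agent.P228
open scoped Topology

namespace Vale.Agent.P174.GR

variable {E : Type*} [NormedAddCommGroup E] [NormedSpace ℝ E] [FiniteDimensional ℝ E]

/-- The sign of the determinant is stable along a line of endomorphisms. -/
theorem eventually_sign_det (D P : E →L[ℝ] E) (h : D.det ≠ 0) :
    ∀ᶠ ε : ℝ in 𝓝 0, SignType.sign (D + ε • P).det = SignType.sign D.det := by
  have hc : Continuous fun ε : ℝ => (D + ε • P).det :=
    ContinuousLinearMap.continuous_det.comp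
      (continuous_const.add (continuous_id.smul continuous_const))
  have h0 : (D + (0 : ℝ) • P).det = D.det := by
    congr 1
    ext x
    simp
  rcases lt_or_gt_of_ne h with h' | h'
  · filter_upwards [hc.continuousAt.eventually_lt continuousAt_const (by rw [h0]; exact h')]
      with ε hε
    rw [sign_neg hε, sign_neg h']
  · filter_upwards [continuousAt_const.eventually_lt hc.continuousAt (by rw [h0]; exact h')]
      with ε hε
    rw [sign_pos hε, sign_pos h']

/-- The degree around finitely many nondegenerate zeros. -/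
theorem degree_eq_sum [Nontrivial E] {f : E → E} (hf : ContDiff ℝ 1 f) {U : Set E}
    (hU : IsOpen U) (hUb : Bornology.IsBounded U) {ι : Type*} [Fintype ι] {z : ι → E}
    (hz : Function.Injective z) (hzU : ∀ i, z i ∈ U) (hz0 : ∀ i, f (z i) = 0)
    (hall : ∀ x ∈ closure U, f x = 0 → ∃ i, z i = x) (hreg : ∀ i, jdet f (z i) ≠ 0) :
    degree f U 0 = ∑ i, (SignType.sign (jdet f (z i)) : ℤ) := by
  borelize E
  have happ : IsApprox f U 0 f 0 := by
    refine ⟨hf, fun x hx h0 => ?_, fun x hx => ?_⟩
    · obtain ⟨i, rfl⟩ := hall x hx h0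
      exact hreg i
    · rw [sub_self, norm_zero, sub_zero]
      have : f x ≠ 0 := fun h0 => by
        obtain ⟨i, rfl⟩ := hall x hx.1 h0
        exact hx.2 (hU.interior_eq.symm ▸ hzU i)
      positivity
  have hset : U ∩ f ⁻¹' {0} = range z := by
    ext x
    constructor
    · rintro ⟨hx, h0⟩
      exact hall x (subset_closure hx) h0
    · rintro ⟨i, rfl⟩
      exact ⟨hzU i, hz0 i⟩
  rw [degree_eq hU hUb hf.continuous.continuousOn happ, signSum, hset, finsum_mem_range hz,
    finsum_eq_sum_of_fintype]

end Vale.Agent.P174.GR
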