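import Vale.Agent.P174.GR.Base
import Vale.Agent.P174.GR.Generic
import Vale.Agent.P174.GR.Free

noncomputable section

open Set Filter Metric Function Vale.Agent.P228
open scoped Topology Matrix.Norms.Frobenius

namespace Vale.Agent.P174.GR

variable {n p q : ℕ} [Fact q.Prime] {W : Fin n → List (Letter n p)}

/-- Good perturbation parameters exist. -/
theorem exists_param [Nontrivial (Sp n p)] (hpq : p ≤ q) (hW : ∀ i, OneL (W i)) (hA0 : (expMat W).det ≠ 0) :
    ∃ ε : ℝ, (∀ c, jdet (pertMap W ε) (emb (W := W) c) ≠ 0) ∧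
      (∀ x ∈ frontier (sysDom W), pertMap W ε x ≠ 0) ∧
      sysDeg W = degree (pertMap W ε) (sysDom W) 0 := by
  classical
  haveI := torusSol_finite (expMat W) hA0
  have hUL : ∀ i, UL (W i) := fun i c hc => by rw [hW i c hc]; exact one_mem _
  let F : Sp n p → Sp n p := sysMap W
  let one : Sp n p := fun _ => 1
  let Ω : Set (Sp n p) := sysDom W
  let G : ℝ → Sp n p → Sp n p := pertMap W
  have hF : ContDiff ℝ 1 F := contDiff_sysMap W
  have hFd : Differentiable ℝ F := hF.differentiable one_ne_zero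
  have hG : ∀ ε, ContDiff ℝ 1 (G ε) := fun ε =>
    hF.add ((offP (n := n) (p := p)).contDiff.const_smul ε)
  have hinj : ∀ ε c, _ → jdet (G ε) (emb (W := W) c) ≠ 0 := fun ε c =>
    pert_jdet_ne (q := q) hpq hW hA0 ε c
  obtain ⟨r, hr, hrb⟩ := exists_norm_lower_bound (frontier_isCompact (isBounded_sysDom W))
    hF.continuous.continuousOn fun x hx => sysMap_ne_zero_frontier hUL hx
  have hev : ∀ᶠ ε in 𝓝[≠] (0 : ℝ), (∀ c, jdet (G ε) (emb (W := W) c) ≠ 0) ∧
      |ε| * (2 * p) < r := by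
    refine Filter.Eventually.and ?_ ?_
    · rw [Filter.eventually_all]
      intro c
      have hfin : {μ : ℝ | Module.End.HasEigenvalue
          ((fderiv ℝ F (emb c) : Sp n p →L[ℝ] Sp n p) : Module.End ℝ (Sp n p)) μ}.Finite :=
        Module.End.finite_hasEigenvalue _
      have hfin' := (hfin.image Neg.neg).subset (Set.sdiff_subset (t := {(0 : ℝ)}))
      filter_upwards [self_mem_nhdsWithin, nhdsWithin_le_nhds
        (hfin'.isClosed.isOpen_compl.mem_nhds (show (0 : ℝ) ∉ _ from fun h => h.2 rfl))]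
        with ε hε0 hεc
      refine hinj ε c fun hE => hεc ⟨⟨-ε, hE, neg_neg ε⟩, hε0⟩
    · exact nhdsWithin_le_nhds ((continuous_abs.mul continuous_const).continuousAt.eventually_lt
        continuousAt_const (by simpa using hr))
  obtain ⟨ε, hreg, hsmall⟩ := hev.exists
  have hdegG : sysDeg W = degree (G ε) Ω 0 := by
    refine degree_congr (isOpen_sysDom W) (isBounded_sysDom W) hF.continuous (hG ε).continuous
      fun x hx s hs h0 => ?_
    have h1 := hrb x hx
    rw [sub_zero] at h1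
    have h2 : sysMap W x = -(s • (ε • offP x)) := by
      rw [eq_neg_iff_add_eq_zero, ← h0]
      simp only [G, F, pertMap]; module
    have h3 : ‖x‖ ≤ 2 * p := mem_closedBall_zero_iff.1 (closure_sysDom_bounded W hx.1)
    have h5 : ‖F x‖ ≤ |ε| * (2 * p) := by
      change ‖sysMap W x‖ ≤ _
      rw [h2, norm_neg, norm_smul, norm_smul, Real.norm_eq_abs, Real.norm_eq_abs,
        abs_of_nonneg hs.1]
      have h6 : ‖(offP x : Sp n p)‖ ≤ 2 * (p : ℝ) := (norm_offP_le x).trans h3
      exact (mul_le_of_le_one_left (mul_nonneg (abs_nonneg ε) (norm_nonneg _)) hs.2).trans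
        (mul_le_mul_of_nonneg_left h6 (abs_nonneg ε))
    linarith
  have hGfr : ∀ x ∈ frontier Ω, G ε x ≠ 0 := by
    intro x hx h0
    have h1 := hrb x hx
    rw [sub_zero] at h1
    have h2 : F x = -(ε • offP x) := eq_neg_of_add_eq_zero_left h0
    have h3 : ‖x‖ ≤ 2 * p := mem_closedBall_zero_iff.1 (closure_sysDom_bounded W hx.1)
    rw [h2, norm_neg, norm_smul, Real.norm_eq_abs] at h1
    nlinarith [abs_nonneg ε, norm_offP_le x]
  exact ⟨ε, hreg, hGfr, hdegG⟩

/-- The degree of a system with trivial constants is prime to `p`. -/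
theorem sysDeg_base [Nontrivial (Sp n p)] (hpq : 2 * p < q) (hW : ∀ i, OneL (W i))
    (hdet : (((Matrix.of fun i j => expL (W i) j).det : ℤ) : ZMod q) ≠ 0) :
    ¬ (q : ℤ) ∣ sysDeg W := by
  classical
  let A : Matrix (Fin n) (Fin n) ℤ := expMat W
  have hA0 : A.det ≠ 0 := fun h => hdet (by
    change ((A.det : ℤ) : ZMod q) = 0
    simp [h])
  have hUL : ∀ i, UL (W i) := fun i c hc => by rw [hW i c hc]; exact one_mem _
  haveI := torusSol_finite A hA0
  haveI : Fintype (torusSol A) := Fintype.ofFinite _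
  obtain ⟨ε, hreg, hGfr, hdegG⟩ := exists_param (q := q) (by omega) hW hA0
  let F : Sp n p → Sp n p := sysMap W
  let one : Sp n p := fun _ => 1
  let Ω : Set (Sp n p) := sysDom W
  let Tc : Sp n p ≃ₗᵢ[ℝ] Sp n p := piIso (clock q)
  let G : ℝ → Sp n p → Sp n p := pertMap W
  have hG : ∀ ε, ContDiff ℝ 1 (G ε) := fun ε =>
    (contDiff_sysMap W).add ((offP (n := n) (p := p)).contDiff.const_smul ε)
  have hGc : ∀ ε x, G ε (Tc x) = Tc (G ε x) := fun ε x => by
    simp only [G, pertMap, Tc, map_add, map_smul, sysMap_respects (clock q) clock_respects hW,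
      offP_clock]
  have hGemb : ∀ ε c, G ε (emb (W := W) c) = 0 := fun ε c => by
    simp [G, pertMap, sysMap_emb hW, offP_emb]
  have hembΩ : ∀ c : Fin p → torusSol A, emb c ∈ Ω := emb_mem_sysDom hW
  have hembfix : ∀ c : Fin p → torusSol A, Tc (emb c) = emb c := clock_emb
  have hemb_inj : Function.Injective (emb (W := W)) := emb_injective
  have hfixed := exists_emb_of_fixed (q := q) (by omega) hW
  -- small balls around the torus solutions
  obtain ⟨ρ, hρ, hball⟩ : ∃ ρ > 0, ∀ c : Fin p → torusSol A, closedBall (emb c) ρ ⊆ Ω ∧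
      ∀ x ∈ closedBall (emb c) ρ, G ε x = 0 → x = emb c := by
    have hc : ∀ c : Fin p → torusSol A, ∀ᶠ ρ in 𝓝[>] (0 : ℝ), closedBall (emb c) ρ ⊆ Ω ∧
        ∀ x ∈ closedBall (emb c) ρ, G ε x = 0 → x = emb c := by
      intro c
      have hne : ∀ᶠ x in 𝓝 (emb c), G ε x = 0 → x = emb c := by
        have hA' : ∃ C, AntilipschitzWith C (fderiv ℝ (G ε) (emb c)) := by
          have hk : LinearMap.ker ((fderiv ℝ (G ε) (emb c) : Sp n p →L[ℝ] Sp n p) :
              Sp n p →ₗ[ℝ] Sp n p) = ⊥ := by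
            by_contra hk
            exact hreg c (LinearMap.det_eq_zero_iff_ker_ne_bot.2 hk)
          obtain ⟨K, -, hK⟩ := LinearMap.exists_antilipschitzWith _ hk
          exact ⟨K, hK⟩
        have := ((hG ε).differentiable one_ne_zero (emb c)).hasFDerivAt.eventually_ne
          (c := (0 : Sp n p)) hA'
        rw [eventually_nhdsWithin_iff] at this
        filter_upwards [this] with x hx h0
        by_contra hne
        exact hx hne h0
      have hmem := Filter.inter_mem ((isOpen_sysDom W).mem_nhds (hembΩ c)) hne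
      obtain ⟨ρ₀, hρ₀, hsub⟩ := Metric.nhds_basis_closedBall.mem_iff.1 hmem
      filter_upwards [Ioo_mem_nhdsGT hρ₀] with ρ hρ
      exact ⟨fun x hx => (hsub (closedBall_subset_closedBall hρ.2.le hx)).1,
        fun x hx => (hsub (closedBall_subset_closedBall hρ.2.le hx)).2⟩
    obtain ⟨ρ, hρ, hρ'⟩ :=
      (Filter.Eventually.and (self_mem_nhdsWithin : ∀ᶠ t : ℝ in 𝓝[>] (0 : ℝ), t ∈ Ioi (0 : ℝ))
        (Filter.eventually_all.2 hc)).exists
    exact ⟨ρ, hρ, hρ'⟩
  let U : Set (Sp n p) := ⋃ c : Fin p → torusSol A, ball (emb c) ρ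
  let V : Set (Sp n p) := Ω \ ⋃ c : Fin p → torusSol A, closedBall (emb c) ρ
  have hUo : IsOpen U := isOpen_iUnion fun c => isOpen_ball
  have hBc : IsClosed (⋃ c : Fin p → torusSol A, closedBall (emb c) ρ) :=
    isClosed_iUnion_of_finite fun c => isClosed_closedBall
  have hVo : IsOpen V := (isOpen_sysDom W).sdiff hBc
  have hUΩ : U ⊆ Ω := iUnion_subset fun c => ball_subset_closedBall.trans (hball c).1
  have hUcl : closure U ⊆ ⋃ c, closedBall (emb c) ρ :=
    closure_minimal (iUnion_mono fun c => ball_subset_closedBall) hBc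
  have hdis : Disjoint U V := disjoint_left.2 fun x hx hx' =>
    hx'.2 (iUnion_mono (fun c => ball_subset_closedBall) hx)
  have hsplit : degree (G ε) Ω 0 = degree (G ε) U 0 + degree (G ε) V 0 := by
    refine degree_union (isOpen_sysDom W) (isBounded_sysDom W) hUo hVo hUΩ sdiff_subset hdis
      (hG ε).continuous fun x hx hnot h0 => ?_
    have hxΩ : x ∈ Ω := mem_of_notMem_frontier (isOpen_sysDom W) hx fun h => hGfr x h h0
    by_cases hxB : x ∈ ⋃ c : Fin p → torusSol A, closedBall (emb c) ρ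
    · obtain ⟨c, hc⟩ := mem_iUnion.1 hxB
      refine hnot (Or.inl (mem_iUnion.2 ⟨c, ?_⟩))
      rw [(hball c).2 x hc h0]
      exact mem_ball_self hρ
    · exact hnot (Or.inr ⟨hxΩ, hxB⟩)
  have hV : (q : ℤ) ∣ degree (G ε) V 0 := by
    refine dvd_degree_of_free Tc (fun x => ?_) (hG ε) (hGc ε) hVo
      ((isBounded_sysDom W).subset sdiff_subset) (fun x hx => ?_) (fun x hx h0 => ?_)
      (fun x hx h0 hfix => ?_)
    · funext j
      simp only [Tc, piIso_iterate, clock_iterate]
    · refine ⟨sysDom_respects (clock q) clock_respects hW hx.1, fun hB => hx.2 ?_⟩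
      obtain ⟨c, hc⟩ := mem_iUnion.1 hB
      refine mem_iUnion.2 ⟨c, ?_⟩
      rw [mem_closedBall] at hc ⊢
      calc dist x (emb c) = dist (Tc x) (Tc (emb c)) := (Tc.dist_map _ _).symm
        _ = dist (Tc x) (emb c) := by rw [hembfix]
        _ ≤ ρ := hc
    · have hxΩ : x ∈ Ω := by
        refine mem_of_notMem_frontier (isOpen_sysDom W) (closure_mono sdiff_subset hx.1) fun h => ?_
        exact hGfr x h h0
      by_cases hxB : x ∈ ⋃ c : Fin p → torusSol A, closedBall (emb c) ρ
      · obtain ⟨c, hc⟩ := mem_iUnion.1 hxB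
        obtain ⟨z, hz, hzV⟩ := mem_closure_iff.1 hx.1 (ball (emb c) ρ) isOpen_ball
          (by rw [(hball c).2 x hc h0]; exact mem_ball_self hρ)
        exact hzV.2 (mem_iUnion.2 ⟨c, ball_subset_closedBall hz⟩)
      · exact hx.2 ((hVo.interior_eq).symm ▸ (⟨hxΩ, hxB⟩ : x ∈ V))
    · have h1 : F x = 0 := by
        have hoff : offP x = 0 := offP_eq_zero_of_fixed (q := q) (by omega) hfix
        simpa [G, F, pertMap, hoff] using h0
      obtain ⟨c, rfl⟩ := hfixed x hx.1 h1 hfix
      exact hx.2 (mem_iUnion.2 ⟨c, mem_closedBall_self hρ.le⟩)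
  have hUb : Bornology.IsBounded U := (isBounded_sysDom W).subset hUΩ
  let g : (Fin p → torusSol A) → ℤ := fun c => (SignType.sign (jdet (G ε) (emb c)) : ℤ)
  have hUdeg : degree (G ε) U 0 = ∑ c, g c := by
    refine degree_eq_sum (hG ε) hUo hUb hemb_inj
      (fun c => mem_iUnion.2 ⟨c, mem_ball_self hρ⟩) (hGemb ε) (fun x hx h0 => ?_) hreg
    obtain ⟨c, hc⟩ := mem_iUnion.1 (hUcl hx)
    exact ⟨c, ((hball c).2 x hc h0).symm⟩
  intro hdvd
  rw [hdegG, hsplit, hUdeg] at hdvd
  have h1 : (q : ℤ) ∣ ∑ c, g c := (dvd_add_left hV).1 hdvd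
  let d0 : ℝ := LinearMap.det
    ((fderiv ℝ (sysMap W) (fun _ => (1 : Mat p)) : Sp n p →L[ℝ] Sp n p).toLinearMap ∘ₗ
      (LinearMap.id - (offP : Sp n p →L[ℝ] Sp n p).toLinearMap) +
      (offP : Sp n p →L[ℝ] Sp n p).toLinearMap)
  have hsg : ∀ c, g c = (SignType.sign d0 : ℤ) := fun c => by
    simp only [g, G, d0]
    rw [pert_sign hpq hW ε c (hreg c)]
  have hd0 : d0 ≠ 0 := by
    have hs := pert_sign hpq hW ε (fun _ => (1 : torusSol A)) (hreg _)
    intro h
    rw [show SignType.sign (LinearMap.det _) = SignType.sign d0 from rfl, h, sign_zero,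
      sign_eq_zero_iff] at hs
    exact hreg _ hs
  simp only [hsg, Finset.sum_const, Finset.card_univ, Fintype.card_fun, Fintype.card_fin] at h1
  have h2 : (q : ℤ) ∣ ((Fintype.card (torusSol A) ^ p : ℕ) : ℤ) := by
    rcases lt_or_gt_of_ne hd0 with h | h
    · rw [sign_neg h] at h1
      simpa using h1
    · rw [sign_pos h] at h1
      simpa using h1
  apply torusSol_card (p := q) A hdet
  rw [Nat.card_eq_fintype_card]
  exact (Fact.out : q.Prime).dvd_of_dvd_pow (Int.natCast_dvd_natCast.1 h2)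

end Vale.Agent.P174.GR
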