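import Vale.Agent.P174.GR.Poly

noncomputable section

open Set Filter Metric Function Vale.Agent.P228
open scoped Topology Matrix.Norms.Frobenius Classical

namespace Vale.Agent.P174.GR

variable {n p : ℕ} [Nontrivial (Sp n p)]

/-- A chosen path from one to a unitary matrix. -/
def upath (c : Mat p) : ℝ → Mat p :=
  if h : c ∈ unitary (Mat p) then (exists_unitary_path c h).choose else fun _ => 1

theorem upath_continuous (c : Mat p) : Continuous (upath c) := by
  unfold upath; split_ifs with h
  · exact (exists_unitary_path c h).choose_spec.1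
  · exact continuous_const

theorem upath_mem (c : Mat p) (t : ℝ) : upath c t ∈ unitary (Mat p) := by
  unfold upath; split_ifs with h
  · exact (exists_unitary_path c h).choose_spec.2.1 t
  · exact one_mem _

theorem upath_zero (c : Mat p) : upath c 0 = 1 := by
  unfold upath; split_ifs with h
  · exact (exists_unitary_path c h).choose_spec.2.2.1
  · rfl

theorem upath_one {c : Mat p} (h : c ∈ unitary (Mat p)) : upath c 1 = c := by
  rw [upath, dif_pos h]
  exact (exists_unitary_path c h).choose_spec.2.2.2

def moveLetter (t : ℝ) : Letter n p → Letter n p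
  | .inl c => .inl (upath c t)
  | .inr q => .inr q

def moveWord (t : ℝ) (L : List (Letter n p)) : List (Letter n p) := L.map (moveLetter t)

theorem moveWord_UL (t : ℝ) (L : List (Letter n p)) : UL (moveWord t L) := by
  intro c hc
  obtain ⟨l, -, hlc⟩ := List.mem_map.1 hc
  rcases l with c' | q
  · simp only [moveLetter, Sum.inl.injEq] at hlc
    rw [← hlc]; exact upath_mem c' t
  · simp [moveLetter] at hlc

theorem moveWord_zero (L : List (Letter n p)) : OneL (moveWord 0 L) := by
  intro c hc
  obtain ⟨l, -, hlc⟩ := List.mem_map.1 hc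
  rcases l with c' | q
  · simp only [moveLetter, Sum.inl.injEq] at hlc
    rw [← hlc]; exact upath_zero c'
  · simp [moveLetter] at hlc

theorem moveWord_one {L : List (Letter n p)} (hL : UL L) : moveWord 1 L = L := by
  induction L with
  | nil => rfl
  | cons l L ih =>
    simp only [moveWord, List.map_cons]
    congr 1
    · rcases l with c | q
      · simp [moveLetter, upath_one (hL c List.mem_cons_self)]
      · rfl
    · exact ih fun c hc => hL c (List.mem_cons_of_mem _ hc)

theorem expL_moveWord (t : ℝ) (L : List (Letter n p)) (k : Fin n) :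
    expL (moveWord t L) k = expL L k := by
  induction L with
  | nil => rfl
  | cons l L ih =>
    simp only [moveWord, List.map_cons, expL_cons] at ih ⊢
    rw [ih]
    rcases l with c | q <;> rfl

omit [Nontrivial (Sp n p)] in
theorem continuous_evalL_move (L : List (Letter n p)) :
    Continuous fun q : ℝ × Sp n p => evalL (moveWord q.1 L) q.2 := by
  induction L with
  | nil => exact continuous_const
  | cons l L ih =>
    have h : Continuous fun q : ℝ × Sp n p => letterEval q.2 (moveLetter q.1 l) := by
      rcases l with c | ⟨j, b⟩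
      · exact (upath_continuous c).comp continuous_fst
      · cases b
        · exact ((continuous_apply j).comp continuous_snd).star
        · exact (continuous_apply j).comp continuous_snd
    exact h.mul ih

/-- Invariance of the degree when the constants move. -/
theorem sysDeg_move (W : Fin n → List (Letter n p)) :
    sysDeg (fun i => moveWord 1 (W i)) = sysDeg (fun i => moveWord 0 (W i)) := by
  let Wt : ℝ → Fin n → List (Letter n p) := fun t i => moveWord t (W i)
  have hUL : ∀ t i, UL (Wt t i) := fun t i => moveWord_UL t (W i)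
  have hloc : ∀ t₀ : ℝ, ∀ᶠ t in 𝓝 t₀, sysDeg (Wt t) = sysDeg (Wt t₀) := by
    intro t₀
    obtain ⟨r, hr, hrb⟩ := exists_norm_lower_bound
      (frontier_isCompact (isBounded_sysDom (Wt t₀)))
      (contDiff_sysMap (Wt t₀)).continuous.continuousOn
      fun x hx => sysMap_ne_zero_frontier (hUL t₀) hx
    have hu : ∀ᶠ t in 𝓝 t₀, ∀ x ∈ closedBall (0 : Sp n p) (2 * p), ∀ i,
        ‖evalL (Wt t i) x - evalL (Wt t₀ i) x‖ < min (1 / 2) (r / 4) := by
      refine (isCompact_closedBall _ _).eventually_forall_of_forall_eventually fun x _ => ?_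
      rw [Filter.eventually_all]
      intro i
      have hc : Continuous fun q : ℝ × Sp n p =>
          ‖evalL (moveWord q.1 (W i)) q.2 - evalL (moveWord t₀ (W i)) q.2‖ :=
        ((continuous_evalL_move (W i)).sub
          ((contDiff_evalL (moveWord t₀ (W i))).continuous.comp continuous_snd)).norm
      exact hc.continuousAt.preimage_mem_nhds
        (Iio_mem_nhds (by simp only [sub_self, norm_zero]; positivity))
    filter_upwards [hu] with t ht
    have hcongr : degree (sysMap (Wt t₀)) (sysDom (Wt t₀)) 0 =
        degree (sysMap (Wt t)) (sysDom (Wt t₀)) 0 := by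
      refine degree_congr (isOpen_sysDom _) (isBounded_sysDom _) (contDiff_sysMap _).continuous
        (contDiff_sysMap _).continuous fun x hx s hs h0 => ?_
      have hball := closure_sysDom_bounded (Wt t₀) hx.1
      have hdiff : ‖sysMap (Wt t) x - sysMap (Wt t₀) x‖ ≤ r / 2 := by
        rw [pi_norm_le_iff_of_nonneg (by positivity)]
        intro i
        have h1 := (ht x hball i).trans_le (min_le_right _ _)
        simp only [Pi.sub_apply, sysMap]
        rw [show ∀ a b c d e : Mat p, (a - b + c) - (d - e + c) = (a - d) - (b - e) from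
          fun a b c d e => by abel, ← star_sub]
        refine (norm_sub_le _ _).trans ?_
        rw [show ‖star (evalL (Wt t i) x - evalL (Wt t₀ i) x)‖ =
          ‖evalL (Wt t i) x - evalL (Wt t₀ i) x‖ from Matrix.frobenius_norm_conjTranspose _]
        linarith
      have h2 := hrb x hx
      rw [sub_zero] at h2
      have h3 : sysMap (Wt t₀) x = -(s • (sysMap (Wt t) x - sysMap (Wt t₀) x)) := by
        rw [eq_neg_iff_add_eq_zero, ← h0]; module
      rw [h3, norm_neg, norm_smul, Real.norm_eq_abs, abs_of_nonneg hs.1] at h2
      nlinarith [hs.2, hs.1, norm_nonneg (sysMap (Wt t) x - sysMap (Wt t₀) x)]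
    let Ω' := sysDom (Wt t₀) ∩ sysDom (Wt t)
    have hΩ' : IsOpen Ω' := (isOpen_sysDom _).inter (isOpen_sysDom _)
    have hempty : ∀ f : Sp n p → Sp n p, Continuous f → degree f (∅ : Set (Sp n p)) 0 = 0 :=
      fun f hf => degree_eq_zero isOpen_empty Bornology.isBounded_empty hf (by simp)
    have hA : degree (sysMap (Wt t)) (sysDom (Wt t₀)) 0 = degree (sysMap (Wt t)) Ω' 0 := by
      rw [degree_union (isOpen_sysDom _) (isBounded_sysDom _) hΩ' isOpen_empty inter_subset_left
        (empty_subset _) (disjoint_empty _) (contDiff_sysMap _).continuous ?_,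
        hempty _ (contDiff_sysMap _).continuous, add_zero]
      intro x hx hnot h0
      apply hnot
      have hball := closure_sysDom_bounded (Wt t₀) hx
      have h1 : ∀ i, ‖evalL (Wt t i) x - 1‖ < 2 := fun i => by
        have := (closure_sysDom_subset _ hx i).2
        have := norm_sub_le_norm_sub_add_norm_sub (evalL (Wt t i) x) (evalL (Wt t₀ i) x) 1
        linarith [(ht x hball i).trans_le (min_le_left _ _)]
      obtain ⟨hu', h1'⟩ := sysMap_eq_zero (hUL t) h0
      refine Or.inl ⟨fun i => ⟨by simp [(Unitary.mem_iff.1 (hu' i)).1], ?_⟩,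
        zero_mem_sysDom (hUL t) h0 h1⟩
      have := ht x hball i
      rw [h1' i (h1 i)] at this
      rw [norm_sub_rev]
      linarith [min_le_left (1 / 2 : ℝ) (r / 4)]
    have hB : degree (sysMap (Wt t)) (sysDom (Wt t)) 0 = degree (sysMap (Wt t)) Ω' 0 := by
      rw [degree_union (isOpen_sysDom _) (isBounded_sysDom _) hΩ' isOpen_empty inter_subset_right
        (empty_subset _) (disjoint_empty _) (contDiff_sysMap _).continuous ?_,
        hempty _ (contDiff_sysMap _).continuous, add_zero]
      intro x hx hnot h0
      apply hnot
      have hball := closure_sysDom_bounded (Wt t) hx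
      obtain ⟨hu', h1'⟩ := sysMap_eq_zero (hUL t) h0
      have h1 : ∀ i, evalL (Wt t i) x = 1 := fun i =>
        h1' i (by linarith [(closure_sysDom_subset _ hx i).2])
      refine Or.inl ⟨fun i => ⟨by simp [(Unitary.mem_iff.1 (hu' i)).1], ?_⟩,
        zero_mem_sysDom (hUL t) h0 fun i => by simp [h1 i]⟩
      have := ht x hball i
      rw [h1 i, norm_sub_rev] at this
      linarith [min_le_left (1 / 2 : ℝ) (r / 4)]
    simp only [sysDeg]
    rw [hB, ← hA, ← hcongr]
  have hcon : Continuous fun t => sysDeg (Wt t) := by
    rw [continuous_iff_continuousAt]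
    exact fun t₀ => tendsto_nhds_of_eventually_eq (hloc t₀)
  exact (PreconnectedSpace.constant inferInstance hcon : sysDeg (Wt 1) = sysDeg (Wt 0))

end Vale.Agent.P174.GR
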