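import Vale.Agent.P174.GR.Degree
import Vale.Agent.P174.GR.Homotopy
import Vale.Agent.P174.Main

noncomputable section

open Monoid

namespace Vale.Agent.P174

/-- `G` embeds in a quotient of a product of finite dimensional unitary groups. -/
def UApprox (G : Type) [Group G] : Prop :=
  ∃ (I : Type) (d : I → ℕ) (K : Subgroup (∀ i, Matrix.unitaryGroup (Fin (d i)) ℂ))
    (_ : K.Normal) (φ : G →* (∀ i, Matrix.unitaryGroup (Fin (d i)) ℂ) ⧸ K), Function.Injective φ

namespace GR

/-- Square systems over a unitary group are solvable in it. -/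
theorem solve_square {k n : ℕ} (w : Fin n → M (unitary (Mat k)) (Fin n))
    (hw : (Matrix.of fun i j => row ℤ (w i) j).det ≠ 0) :
    ∃ x : Fin n → unitary (Mat k), ∀ i,
      Coprod.lift (MonoidHom.id _) (FreeGroup.lift x) (w i) = 1 := by
  rcases Nat.eq_zero_or_pos n with rfl | hn
  · exact ⟨fun i => i.elim0, fun i => i.elim0⟩
  rcases Nat.eq_zero_or_pos k with rfl | hk
  · exact ⟨fun _ => 1, fun i => Subtype.ext (Subsingleton.elim _ _)⟩
  haveI : NeZero k := ⟨hk.ne'⟩
  haveI : NeZero n := ⟨hn.ne'⟩
  haveI : Nontrivial (Sp n k) := inferInstance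
  choose L hUL hL hexp using fun i => exists_word (w i)
  obtain ⟨q, hq, hqp⟩ := Nat.exists_infinite_primes
    (2 * k + (Matrix.of fun i j => row ℤ (w i) j).det.natAbs + 1)
  haveI : Fact q.Prime := ⟨hqp⟩
  let W0 : Fin n → List (Letter n k) := fun i => moveWord 0 (L i)
  have hA : (Matrix.of fun i j => expL (W0 i) j) = Matrix.of fun i j => row ℤ (w i) j := by
    ext i j
    simp [W0, expL_moveWord, hexp]
  have hdet : (((Matrix.of fun i j => expL (W0 i) j).det : ℤ) : ZMod q) ≠ 0 := by
    rw [hA]
    intro h
    rw [ZMod.intCast_zmod_eq_zero_iff_dvd] at h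
    have := Int.eq_zero_of_dvd_of_natAbs_lt_natAbs h (by simp; omega)
    exact hw this
  have hne : sysDeg L ≠ 0 := by
    intro h0
    have h1 : sysDeg W0 = sysDeg L := by
      have := sysDeg_move L
      rw [show (fun i => moveWord 1 (L i)) = L from funext fun i => moveWord_one (hUL i)] at this
      exact this.symm
    apply sysDeg_base (q := q) (by omega) (fun i => moveWord_zero (L i)) hdet
    rw [h1, h0]
    exact dvd_zero _
  obtain ⟨x, hx, hsol⟩ := exists_solution hUL hne
  refine ⟨fun j => ⟨x j, hx j⟩, fun i => Subtype.ext ?_⟩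
  rw [← hL i]
  exact hsol i

/-- Systems with rationally independent rows over a unitary group are solvable in it. -/
theorem solve_unitary {k : ℕ} : ∀ (d m n : ℕ), m + d = n →
    ∀ w : Fin m → M (unitary (Mat k)) (Fin n),
      LinearIndependent ℚ (fun i => row ℚ (w i)) →
      ∃ x : Fin n → unitary (Mat k), ∀ i,
        Coprod.lift (MonoidHom.id _) (FreeGroup.lift x) (w i) = 1 := by
  intro d
  induction d with
  | zero =>
    intro m n h w hw
    obtain rfl : m = n := by omega
    refine solve_square w fun hdet => ?_
    have h1 : LinearIndependent ℚ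
        ((Matrix.of fun i j => row ℤ (w i) j).map (Int.castRingHom ℚ)).row := by
      rw [Fintype.linearIndependent_iff]
      intro c hc
      refine Fintype.linearIndependent_iff.1 hw c ?_
      ext j
      have := congrFun hc j
      simpa [Finsupp.coe_finsetSum, row_cast_rat, Matrix.row] using this
    have h3 := (Matrix.isUnit_iff_isUnit_det _).1
      (Matrix.linearIndependent_rows_iff_isUnit.1 h1)
    rw [← RingHom.mapMatrix_apply, ← RingHom.map_det, hdet] at h3
    simp at h3
  | succ d ih =>
    intro m n h w hw
    obtain ⟨j, hj⟩ : ∃ j : Fin n, Finsupp.single j (1 : ℚ) ∉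
        Submodule.span ℚ (Set.range fun i => row ℚ (w i)) := by
      by_contra hne
      push Not at hne
      have htop : Submodule.span ℚ (Set.range fun i => row ℚ (w i)) = ⊤ := by
        rw [eq_top_iff]
        intro v _
        rw [← Finsupp.univ_sum_single v]
        refine Submodule.sum_mem _ fun j _ => ?_
        rw [show Finsupp.single j (v j) = v j • Finsupp.single j (1 : ℚ) by simp]
        exact Submodule.smul_mem _ _ (hne j)
      have h1 := finrank_span_eq_card hw
      rw [htop, finrank_top, Module.finrank_finsupp_self, Fintype.card_fin, Fintype.card_fin] at h1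
      omega
    obtain ⟨x, hx⟩ := ih (m + 1) n (by omega)
      (Fin.cons (Coprod.inr (FreeGroup.of j)) w) (by
        rw [show (fun i => row ℚ ((Fin.cons (Coprod.inr (FreeGroup.of j)) w :
            Fin (m + 1) → M (unitary (Mat k)) (Fin n)) i)) =
          Fin.cons (Finsupp.single j (1 : ℚ)) (fun i => row ℚ (w i)) from ?_]
        · exact linearIndependent_finCons.2 ⟨hw, hj⟩
        · funext i
          refine Fin.cases ?_ (fun i => ?_) i
          · simp [row_of]
          · simp)
    exact ⟨x, fun i => by simpa using hx i.succ⟩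

end GR

theorem mapG_surjective {G G' : Type} [Group G] [Group G'] {κ : Type} (f : G →* G')
    (hf : Function.Surjective f) (z : M G' κ) : ∃ y : M G κ, mapG f y = z := by
  induction z using M_induction with
  | h1 g => obtain ⟨a, rfl⟩ := hf g; exact ⟨Coprod.inl a, by simp [mapG]⟩
  | h2 j => exact ⟨Coprod.inr (FreeGroup.of j), by simp [mapG]⟩
  | hinv a ha => obtain ⟨y, rfl⟩ := ha; exact ⟨y⁻¹, map_inv _ _⟩
  | hmul a b ha hb =>
    obtain ⟨y, rfl⟩ := ha
    obtain ⟨y', rfl⟩ := hb
    exact ⟨y * y', map_mul _ _ _⟩

/-- All nonsingular systems over a group in a quotient of a product of unitary groups are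
solvable. -/
theorem UApprox.solvable {G : Type} [Group G] (hG : UApprox G) {m n : ℕ}
    (w : Fin m → M G (Fin n)) (hw : LinearIndependent ℚ (fun i => row ℚ (w i))) :
    Solvable w := by
  obtain ⟨I, d, K, hK, φ, hφ⟩ := hG
  have hmn : m ≤ n := by simpa using hw.fintype_card_le_finrank
  choose w' hw' using fun i =>
    mapG_surjective (QuotientGroup.mk' K) (QuotientGroup.mk'_surjective K) (mapG φ (w i))
  have hrow : ∀ i, row ℚ (w' i) = row ℚ (w i) := fun i => by
    rw [← row_mapG (QuotientGroup.mk' K) (w' i), hw' i, row_mapG]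
  have hsol := fun a => GR.solve_unitary (k := d a) (n - m) m n (by omega)
    (fun i => mapG (Pi.evalMonoidHom _ a) (w' i)) (by simpa [row_mapG, hrow] using hw)
  choose x hx using hsol
  refine ⟨_, inferInstance, φ, fun j => QuotientGroup.mk' K fun a => x a j, hφ, fun i => ?_⟩
  have h1 : Coprod.lift φ (FreeGroup.lift fun j => QuotientGroup.mk' K fun a => x a j) (w i) =
      Coprod.lift (QuotientGroup.mk' K)
        (FreeGroup.lift fun j => QuotientGroup.mk' K fun a => x a j) (w' i) := by
    have h2 := lift_mapG φ (MonoidHom.id _) (fun j => QuotientGroup.mk' K fun a => x a j) (w i)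
    have h3 := lift_mapG (QuotientGroup.mk' K) (MonoidHom.id _)
      (fun j => QuotientGroup.mk' K fun a => x a j) (w' i)
    rw [hw' i] at h3
    rw [MonoidHom.id_comp] at h2 h3
    exact h2.symm.trans h3
  have h4 : Coprod.lift (QuotientGroup.mk' K)
      (FreeGroup.lift fun j => QuotientGroup.mk' K fun a => x a j) =
      (QuotientGroup.mk' K).comp (Coprod.lift (MonoidHom.id _)
        (FreeGroup.lift fun j => fun a => x a j)) := by
    refine Coprod.hom_ext ?_ ?_
    · ext g; simp
    · ext j; simp
  rw [h1, h4, MonoidHom.comp_apply, show Coprod.lift (MonoidHom.id _)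
    (FreeGroup.lift fun j => fun a => x a j) (w' i) = 1 from ?_, map_one]
  funext a
  have h5 : (Pi.evalMonoidHom _ a).comp
      (Coprod.lift (MonoidHom.id _) (FreeGroup.lift fun j => fun a => x a j)) =
      Coprod.lift (Pi.evalMonoidHom (fun a => Matrix.unitaryGroup (Fin (d a)) ℂ) a)
        (FreeGroup.lift (x a)) := by
    refine Coprod.hom_ext ?_ ?_
    · ext g; simp
    · ext j; simp
  have h6 := DFunLike.congr_fun h5 (w' i)
  have h7 := hx a i
  rw [lift_mapG, MonoidHom.id_comp] at h7
  rw [h7] at h6
  exact h6

/-- Rows independent modulo a prime are rationally independent. -/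
theorem rat_independent {p : ℕ} [Fact p.Prime] {G : Type} [Group G] {m n : ℕ}
    (w : Fin m → M G (Fin n))
    (hw : LinearIndependent (ZMod p) (fun i => row (ZMod p) (w i))) :
    LinearIndependent ℚ (fun i => row ℚ (w i)) := by
  rw [← LinearIndependent.iff_fractionRing ℤ ℚ, Fintype.linearIndependent_iff]
  intro c hc
  have h := int_rows_independent (p := p) (fun i k => row ℤ (w i) k) (fun d hd => by
    funext i
    refine Fintype.linearIndependent_iff.1 hw d ?_ i
    ext k
    simpa [Finsupp.coe_finsetSum, row_cast] using hd k) c (fun k => by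
    have h1 := congrArg (fun v : Fin n →₀ ℚ => v k) hc
    simp only [Finsupp.coe_finsetSum, Finset.sum_apply, Finsupp.smul_apply, zsmul_eq_mul,
      Finsupp.coe_zero, Pi.zero_apply, row_cast_rat] at h1
    exact_mod_cast h1)
  exact fun i => congrFun h i

theorem UApprox.howie {p : ℕ} [Fact p.Prime] {G : Type} [Group G] (hG : UApprox G) :
    Howie p G := fun _ _ w hw => hG.solvable w (rat_independent w hw)

end Vale.Agent.P174
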