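import Mathlib

namespace Vale.Agent.P174.GR

/-- A sum over a set permuted without fixed points by an element of order `p` vanishes mod `p`. -/
theorem sum_eq_zero_of_free {p : ℕ} [Fact p.Prime] {α : Type*} [DecidableEq α] (T : α → α)
    (hT : ∀ x, T^[p] x = x) (f : α → ℤ) (hf : ∀ x, f (T x) = f x) :
    ∀ S : Finset α, (∀ x ∈ S, T x ∈ S) → (∀ x ∈ S, T x ≠ x) → (p : ℤ) ∣ ∑ x ∈ S, f x := by
  intro S
  induction S using Finset.strongInduction with
  | H S ih =>
    intro hmem hfree
    rcases S.eq_empty_or_nonempty with rfl | ⟨x, hx⟩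
    · simp
    have hiter : ∀ (k : ℕ) y, y ∈ S → T^[k] y ∈ S := by
      intro k
      induction k with
      | zero => intro y hy; simpa using hy
      | succ k ihk => intro y hy; rw [Function.iterate_succ_apply]; exact ihk _ (hmem _ hy)
    have hfk : ∀ (k : ℕ) y, f (T^[k] y) = f y := by
      intro k
      induction k with
      | zero => intro y; simp
      | succ k ihk => intro y; rw [Function.iterate_succ_apply, ihk, hf]
    have hper : Function.minimalPeriod T x = p := by
      rcases (Nat.dvd_prime (Fact.out : p.Prime)).1
        (Function.IsPeriodicPt.minimalPeriod_dvd (hT x)) with h | h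
      · exact absurd (Function.minimalPeriod_eq_one_iff_isFixedPt.1 h) (hfree x hx)
      · exact h
    let O : Finset α := (Finset.range p).image fun k => T^[k] x
    have hOS : O ⊆ S := by
      intro y hy
      obtain ⟨k, _, rfl⟩ := Finset.mem_image.1 hy
      exact hiter k x hx
    have hinv : ∀ y ∈ O, T y ∈ O := by
      intro y hy
      obtain ⟨k, hk, rfl⟩ := Finset.mem_image.1 hy
      refine Finset.mem_image.2 ⟨(k + 1) % p, Finset.mem_range.2 (Nat.mod_lt _ (Fact.out : p.Prime).pos), ?_⟩
      rw [← Function.iterate_succ_apply' T k x]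
      change T^[(k + 1) % p] x = T^[k + 1] x
      conv_rhs => rw [← Nat.mod_add_div (k + 1) p]
      rw [Function.iterate_add_apply]
      congr 1
      rw [Function.iterate_mul]
      exact (Function.iterate_fixed (f := T^[p]) (hT x) _).symm
    have hback : ∀ y, T y ∈ O → y ∈ O := by
      intro y hy
      have h1 : ∀ (k : ℕ) z, z ∈ O → T^[k] z ∈ O := by
        intro k
        induction k with
        | zero => intro z hz; simpa using hz
        | succ k ihk => intro z hz; rw [Function.iterate_succ_apply]; exact ihk _ (hinv _ hz)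
      have h2 := h1 (p - 1) _ hy
      rw [← Function.iterate_succ_apply T (p - 1) y] at h2
      rwa [show (p - 1).succ = p from by have := (Fact.out : p.Prime).pos; omega, hT] at h2
    have hO : (p : ℤ) ∣ ∑ y ∈ O, f y := by
      have hinj : Set.InjOn (fun k => T^[k] x) (Finset.range p : Set ℕ) := by
        intro a ha b hb hab
        simp only [Finset.coe_range, Set.mem_Iio] at ha hb
        exact Function.iterate_injOn_Iio_minimalPeriod (by simpa [hper] using ha)
          (by simpa [hper] using hb) hab
      rw [Finset.sum_image hinj]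
      simp [hfk]
    have hlt : S \ O ⊂ S := by
      refine Finset.sdiff_ssubset hOS ⟨x, Finset.mem_image.2 ⟨0, ?_, rfl⟩⟩
      exact Finset.mem_range.2 (Fact.out : p.Prime).pos
    have hrest := ih (S \ O) hlt (fun y hy => by
      simp only [Finset.mem_sdiff] at hy ⊢
      exact ⟨hmem y hy.1, fun h => hy.2 (hback y h)⟩) fun y hy => hfree y (Finset.mem_sdiff.1 hy).1
    rw [← Finset.sum_sdiff hOS]
    exact dvd_add hrest hO

end Vale.Agent.P174.GR
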