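import Mathlib

namespace Vale.Agent.P174.GR

open scoped Matrix.Norms.L2Operator
open Complex

variable {ι : Type} [Fintype ι] [DecidableEq ι]

/-- A path of unitary matrices from the identity. -/
theorem exists_unitary_path (u : Matrix ι ι ℂ) (hu : u ∈ unitary (Matrix ι ι ℂ)) :
    ∃ γ : ℝ → Matrix ι ι ℂ, Continuous γ ∧ (∀ t, γ t ∈ unitary (Matrix ι ι ℂ)) ∧
      γ 0 = 1 ∧ γ 1 = u := by
  have hfin : (spectrum ℂ u).Finite := Matrix.finite_spectrum u
  obtain ⟨θ, hθ⟩ : ∃ θ : ℝ, -Complex.exp (θ * I) ∉ spectrum ℂ u := by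
    by_contra hne
    push Not at hne
    have hinj : Set.InjOn (fun θ : ℝ => -Complex.exp (θ * I)) (Set.Ioo 0 1) := by
      intro a ha b hb hab
      have h1 := neg_injective hab
      have h2 : Complex.arg (Complex.exp (a * I)) = Complex.arg (Complex.exp (b * I)) := by rw [h1]
      rw [Complex.arg_exp_mul_I, Complex.arg_exp_mul_I,
        (toIocMod_eq_self Real.two_pi_pos).2, (toIocMod_eq_self Real.two_pi_pos).2] at h2
      · exact h2
      · constructor <;> linarith [hb.1, hb.2, Real.pi_gt_three]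
      · constructor <;> linarith [ha.1, ha.2, Real.pi_gt_three]
    exact (Set.Ioo_infinite (show (0 : ℝ) < 1 by norm_num))
      ((hfin.subset (by rintro _ ⟨a, _, rfl⟩; exact hne a)).of_finite_image hinj)
  let c : ℝ → ℂ := fun t => Complex.exp ((t * θ : ℝ) * I)
  have hc : ∀ t, star (c t) * c t = 1 := by
    intro t
    simp only [c, RCLike.star_def]
    rw [← Complex.normSq_eq_conj_mul_self, Complex.normSq_eq_norm_sq, Complex.norm_exp_ofReal_mul_I]
    simp
  have hcu : ∀ t (v : Matrix ι ι ℂ), v ∈ unitary (Matrix ι ι ℂ) →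
      c t • v ∈ unitary (Matrix ι ι ℂ) := by
    intro t v hv
    rw [Unitary.mem_iff] at hv ⊢
    constructor
    · rw [star_smul, smul_mul_smul_comm, hc, hv.1, one_smul]
    · rw [star_smul, smul_mul_smul_comm, mul_comm, hc, hv.2, one_smul]
  let v : unitary (Matrix ι ι ℂ) := ⟨star (c 1) • u, by
    have := hcu (-1) u hu
    have he : c (-1) = star (c 1) := by
      simp only [c, RCLike.star_def, ← Complex.exp_conj, map_mul, Complex.conj_ofReal,
        Complex.conj_I]
      push_cast
      ring_nf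
    rwa [he] at this⟩
  have hv2 : ‖((v : Matrix ι ι ℂ) - 1)‖ < 2 := by
    rw [Unitary.norm_sub_one_lt_two_iff v.2]
    intro h
    apply hθ
    have hc1 : c 1 ≠ 0 := Complex.exp_ne_zero _
    have h2 : c 1 * (-1 : ℂ) ∈ spectrum ℂ (c 1 • (v : Matrix ι ι ℂ)) := by
      have := (spectrum.smul_mem_smul_iff (r := Units.mk0 (c 1) hc1)).2 h
      simpa using this
    simp only [v, smul_smul, mul_comm (c 1) (star (c 1)), hc, one_smul] at h2
    simpa [c] using h2
  let x := Unitary.argSelfAdjoint v
  have hx : selfAdjoint.expUnitary x = v := expUnitary_argSelfAdjoint hv2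
  let γ := (selfAdjoint.expUnitaryPathToOne x).extend
  refine ⟨fun t => c t • (γ t : Matrix ι ι ℂ), ?_, fun t => ?_, ?_, ?_⟩
  · have h1 : Continuous c := by fun_prop
    have h2 : Continuous fun t : ℝ => (γ t : Matrix ι ι ℂ) :=
      continuous_subtype_val.comp (Path.continuous_extend _)
    exact h1.smul h2
  · exact hcu t _ (γ t).2
  · simp [c, γ]
  · simp only [γ, Path.extend_one, hx, v, smul_smul, mul_comm (c 1) (star (c 1)), hc, one_smul]

end Vale.Agent.P174.GR
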