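import Vale.Agent.P174.Basic
import Vale.Agent.P228.Deg.Deg
import Vale.Agent.P174.GR.Path

noncomputable section

open Set Filter Metric Function Vale.Agent.P228
open scoped Topology Matrix.Norms.Frobenius

namespace Vale.Agent.P174.GR

/-- Square complex matrices indexed by `Fin p`. -/
abbrev Mat (p : ℕ) : Type := Matrix (Fin p) (Fin p) ℂ

/-- Tuples of matrices. -/
abbrev Sp (n p : ℕ) : Type := Fin n → Mat p

/-- A letter: a constant, an unknown, or the adjoint of an unknown. -/
abbrev Letter (n p : ℕ) : Type := Mat p ⊕ (Fin n × Bool)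

variable {n p : ℕ}

def letterEval (x : Sp n p) : Letter n p → Mat p
  | .inl c => c
  | .inr (j, true) => x j
  | .inr (j, false) => star (x j)

def evalL (L : List (Letter n p)) (x : Sp n p) : Mat p := (L.map (letterEval x)).prod

def letterExp (k : Fin n) : Letter n p → ℤ
  | .inl _ => 0
  | .inr (j, true) => if j = k then 1 else 0
  | .inr (j, false) => if j = k then -1 else 0

def expL (L : List (Letter n p)) (k : Fin n) : ℤ := (L.map (letterExp k)).sum

/-- All constants are unitary. -/
def UL (L : List (Letter n p)) : Prop := ∀ c, Sum.inl c ∈ L → c ∈ unitary (Mat p)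

/-- All constants are one. -/
def OneL (L : List (Letter n p)) : Prop := ∀ c, Sum.inl c ∈ L → c = 1

@[simp] theorem evalL_nil (x : Sp n p) : evalL [] x = 1 := rfl

@[simp] theorem evalL_cons (l : Letter n p) (L : List (Letter n p)) (x : Sp n p) :
    evalL (l :: L) x = letterEval x l * evalL L x := rfl

theorem evalL_append (L L' : List (Letter n p)) (x : Sp n p) :
    evalL (L ++ L') x = evalL L x * evalL L' x := by
  simp [evalL]

theorem expL_cons (l : Letter n p) (L : List (Letter n p)) (k : Fin n) :
    expL (l :: L) k = letterExp k l + expL L k := rfl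

def invLetter : Letter n p → Letter n p
  | .inl c => .inl (star c)
  | .inr (j, b) => .inr (j, !b)

theorem evalL_inv (L : List (Letter n p)) (x : Sp n p) :
    evalL (L.map invLetter).reverse x = star (evalL L x) := by
  induction L with
  | nil => simp
  | cons l L ih =>
    rw [List.map_cons, List.reverse_cons, evalL_append, ih, evalL_cons, evalL_nil, mul_one,
      evalL_cons, star_mul]
    congr 1
    rcases l with c | ⟨j, b⟩
    · simp [evalL, letterEval, invLetter]
    · cases b <;> simp [evalL, letterEval, invLetter]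

theorem exists_word (z : M (unitary (Mat p)) (Fin n)) :
    ∃ L : List (Letter n p), UL L ∧
      (∀ x : Fin n → unitary (Mat p), evalL L (fun j => (x j : Mat p)) =
        (Monoid.Coprod.lift (MonoidHom.id _) (FreeGroup.lift x) z : unitary (Mat p))) ∧
      ∀ k, expL L k = row ℤ z k := by
  classical
  induction z using M_induction with
  | h1 g =>
    refine ⟨[.inl (g : Mat p)], fun c hc => ?_, fun x => by simp [evalL, letterEval],
      fun k => by simp [expL, letterExp, row_inl]⟩
    simp at hc; subst hc; exact g.2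
  | h2 j =>
    refine ⟨[.inr (j, true)], fun c hc => by simp at hc, fun x => by simp [evalL, letterEval],
      fun k => ?_⟩
    by_cases h : j = k <;> simp [expL, letterExp, row_of, h]
  | hinv a ha =>
    obtain ⟨L, h1, h2, h3⟩ := ha
    refine ⟨(L.map invLetter).reverse, fun c hc => ?_, fun x => ?_, fun k => ?_⟩
    · simp only [List.mem_reverse, List.mem_map] at hc
      obtain ⟨l, hl, hlc⟩ := hc
      rcases l with c' | ⟨j, b⟩
      · simp only [invLetter, Sum.inl.injEq] at hlc
        rw [← hlc]
        exact Unitary.star_mem (h1 c' hl)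
      · simp [invLetter] at hlc
    · rw [evalL_inv, h2, map_inv]
      simp [← Unitary.star_eq_inv]
    · have : ∀ l : Letter n p, letterExp k (invLetter l) = - letterExp k l := by
        intro l
        rcases l with c | ⟨j, b⟩
        · simp [letterExp, invLetter]
        · cases b <;> by_cases h : j = k <;> simp [letterExp, invLetter, h]
      rw [row_inv, Finsupp.neg_apply, ← h3]
      simp only [expL, List.map_reverse, List.sum_reverse, List.map_map]
      induction L with
      | nil => simp
      | cons l L ih =>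
        simp only [List.map_cons, List.sum_cons, comp_apply, this]
        have h' : (L.map (letterExp k ∘ invLetter)).sum = -(L.map (letterExp k)).sum := by
          clear ih h1 h2 h3
          induction L with
          | nil => simp
          | cons m L ihL => simp only [List.map_cons, List.sum_cons, comp_apply, this, ihL]; ring
        rw [h']; ring
  | hmul a b ha hb =>
    obtain ⟨L, h1, h2, h3⟩ := ha
    obtain ⟨L', h1', h2', h3'⟩ := hb
    refine ⟨L ++ L', fun c hc => ?_, fun x => ?_, fun k => ?_⟩
    · rcases List.mem_append.1 hc with h | h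
      exacts [h1 c h, h1' c h]
    · rw [evalL_append, h2, h2', map_mul]; rfl
    · rw [row_mul, Finsupp.add_apply, ← h3, ← h3']
      simp [expL]

/-- The map whose zeros near the unitary solutions are the solutions. -/
def sysMap (W : Fin n → List (Letter n p)) (x : Sp n p) : Sp n p :=
  fun i => (evalL (W i) x - star (evalL (W i) x)) + (star (x i) * x i - 1)

/-- The neighbourhood of the solution set. -/
def sysDom (W : Fin n → List (Letter n p)) : Set (Sp n p) :=
  {x | ∀ i, ‖star (x i) * x i - 1‖ < 1 / 2 ∧ ‖evalL (W i) x - 1‖ < 1}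

theorem contDiff_star_mat : ContDiff ℝ 1 (star : Mat p → Mat p) :=
  (starL' ℝ : Mat p ≃L[ℝ] Mat p).contDiff

theorem contDiff_evalL (L : List (Letter n p)) : ContDiff ℝ 1 (evalL L) := by
  induction L with
  | nil => exact contDiff_const
  | cons l L ih =>
    have h : ContDiff ℝ 1 fun x : Sp n p => letterEval x l := by
      rcases l with c | ⟨j, b⟩
      · exact contDiff_const
      · cases b
        · exact contDiff_star_mat.comp (contDiff_apply ℝ (Mat p) j)
        · exact contDiff_apply ℝ (Mat p) j
    exact h.mul ih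

theorem contDiff_sysMap (W : Fin n → List (Letter n p)) : ContDiff ℝ 1 (sysMap W) := by
  refine contDiff_pi.2 fun i => ?_
  exact ((contDiff_evalL (W i)).sub (contDiff_star_mat.comp (contDiff_evalL (W i)))).add
    (((contDiff_star_mat.comp (contDiff_apply ℝ (Mat p) i)).mul
      (contDiff_apply ℝ (Mat p) i)).sub contDiff_const)

theorem isOpen_sysDom (W : Fin n → List (Letter n p)) : IsOpen (sysDom W) := by
  simp only [sysDom, setOf_forall]
  refine isOpen_iInter_of_finite fun i => IsOpen.inter ?_ ?_
  · exact isOpen_lt (((continuous_apply i).star.mul (continuous_apply i)).sub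
      continuous_const).norm continuous_const
  · exact isOpen_lt ((contDiff_evalL (W i)).continuous.sub continuous_const).norm continuous_const

theorem norm_entry_le (A : Mat p) (a b : Fin p) : ‖A a b‖ ≤ ‖A‖ := by
  rw [Matrix.frobenius_norm_def, ← Real.sqrt_eq_rpow]
  refine Real.le_sqrt_of_sq_le ?_
  rw [← Real.rpow_natCast]
  norm_cast
  refine le_trans ?_ (Finset.single_le_sum (f := fun i => ∑ j, ‖A i j‖ ^ 2)
    (fun i _ => Finset.sum_nonneg fun j _ => sq_nonneg _) (Finset.mem_univ a))
  exact Finset.single_le_sum (f := fun j => ‖A a j‖ ^ 2) (fun j _ => sq_nonneg _)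
    (Finset.mem_univ b)

theorem norm_le_of_near_isometry {A : Mat p} (h : ‖star A * A - 1‖ ≤ 1 / 2) :
    ‖A‖ ≤ 2 * p := by
  have hb : ∀ a b, ‖A a b‖ ≤ 2 := by
    intro a b
    have h1 := (norm_entry_le (star A * A - 1) b b).trans h
    have h2 : (star A * A - 1 : Mat p) b b = ((∑ c, ‖A c b‖ ^ 2 - 1 : ℝ) : ℂ) := by
      simp [Matrix.mul_apply, Matrix.star_apply, RCLike.conj_mul]
    rw [h2, Complex.norm_real, Real.norm_eq_abs] at h1
    have h3 := Finset.single_le_sum (f := fun c => ‖A c b‖ ^ 2) (fun c _ => sq_nonneg _)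
      (Finset.mem_univ a)
    nlinarith [(abs_le.1 h1).2, norm_nonneg (A a b)]
  rw [Matrix.frobenius_norm_def, ← Real.sqrt_eq_rpow, Real.sqrt_le_left (by positivity)]
  calc ∑ i, ∑ j, ‖A i j‖ ^ (2 : ℝ) ≤ ∑ _i : Fin p, ∑ _j : Fin p, (4 : ℝ) := by
        refine Finset.sum_le_sum fun i _ => Finset.sum_le_sum fun j _ => ?_
        rw [show ‖A i j‖ ^ (2 : ℝ) = ‖A i j‖ ^ 2 from Real.rpow_natCast _ 2]
        nlinarith [hb i j, norm_nonneg (A i j)]
    _ = (2 * p) ^ 2 := by simp; ring

theorem closure_sysDom_subset (W : Fin n → List (Letter n p)) :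
    closure (sysDom W) ⊆ {x | ∀ i, ‖star (x i) * x i - 1‖ ≤ 1 / 2 ∧
      ‖evalL (W i) x - 1‖ ≤ 1} := by
  refine closure_minimal (fun x hx i => ⟨(hx i).1.le, (hx i).2.le⟩) ?_
  simp only [setOf_forall]
  refine isClosed_iInter fun i => IsClosed.inter ?_ ?_
  · exact isClosed_le (((continuous_apply i).star.mul (continuous_apply i)).sub
      continuous_const).norm continuous_const
  · exact isClosed_le ((contDiff_evalL (W i)).continuous.sub continuous_const).norm
      continuous_const

theorem closure_sysDom_bounded (W : Fin n → List (Letter n p)) :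
    closure (sysDom W) ⊆ closedBall 0 (2 * p) := by
  intro x hx
  rw [mem_closedBall_zero_iff, pi_norm_le_iff_of_nonneg (by positivity)]
  exact fun i => norm_le_of_near_isometry (closure_sysDom_subset W hx i).1

theorem isBounded_sysDom (W : Fin n → List (Letter n p)) :
    Bornology.IsBounded (sysDom W) :=
  isBounded_closedBall.subset (subset_closure.trans (closure_sysDom_bounded W))

theorem evalL_mem_unitary {L : List (Letter n p)} (hL : UL L) {x : Sp n p}
    (hx : ∀ j, x j ∈ unitary (Mat p)) : evalL L x ∈ unitary (Mat p) := by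
  induction L with
  | nil => exact one_mem _
  | cons l L ih =>
    refine mul_mem ?_ (ih fun c hc => hL c (List.mem_cons_of_mem _ hc))
    rcases l with c | ⟨j, b⟩
    · exact hL c List.mem_cons_self
    · cases b
      · exact Unitary.star_mem (hx j)
      · exact hx j

/-- Zeros of the system map are unitary solutions, once not too far from them. -/
theorem sysMap_eq_zero {W : Fin n → List (Letter n p)} (hW : ∀ i, UL (W i)) {x : Sp n p}
    (hx : sysMap W x = 0) :
    (∀ j, x j ∈ unitary (Mat p)) ∧ ∀ i, ‖evalL (W i) x - 1‖ < 2 → evalL (W i) x = 1 := by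
  have hsplit : ∀ i, star (x i) * x i - 1 = 0 ∧ evalL (W i) x - star (evalL (W i) x) = 0 := by
    intro i
    have h1 : (evalL (W i) x - star (evalL (W i) x)) + (star (x i) * x i - 1) = 0 :=
      congrFun hx i
    have h2 := congrArg star h1
    simp only [star_add, star_sub, star_star, star_mul, star_one, star_zero] at h2
    have h3 : (2 : ℝ) • (star (x i) * x i - 1) = 0 := by
      calc (2 : ℝ) • (star (x i) * x i - 1) =
          ((evalL (W i) x - star (evalL (W i) x)) + (star (x i) * x i - 1)) +
            ((star (evalL (W i) x) - evalL (W i) x) + (star (x i) * x i - 1)) := by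
            rw [two_smul]; abel
        _ = 0 := by rw [h1, h2, add_zero]
    have h4 : star (x i) * x i - 1 = 0 := (smul_eq_zero.1 h3).resolve_left two_ne_zero
    exact ⟨h4, by simpa [h4] using h1⟩
  have hu : ∀ j, x j ∈ unitary (Mat p) := fun j =>
    Unitary.mem_iff.2 ⟨sub_eq_zero.1 (hsplit j).1,
      mul_eq_one_comm.1 (sub_eq_zero.1 (hsplit j).1)⟩
  refine ⟨hu, fun i hi => ?_⟩
  have hs : star (evalL (W i) x) = evalL (W i) x := (sub_eq_zero.1 (hsplit i).2).symm
  have hsq : evalL (W i) x * evalL (W i) x = 1 := by
    have := (Unitary.mem_iff.1 (evalL_mem_unitary (hW i) hu)).1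
    rwa [hs] at this
  let P : Mat p := (2 : ℝ)⁻¹ • (1 - evalL (W i) x)
  have hP : P * P = P := by
    simp only [P, smul_mul_smul_comm, mul_sub, sub_mul, one_mul, mul_one, hsq]
    module
  have hPn : ‖P‖ < 1 := by
    simp only [P, norm_smul, norm_inv, Real.norm_two]
    rw [norm_sub_rev] at hi
    linarith
  have hle : ‖P‖ ≤ ‖P‖ * ‖P‖ := by
    conv_lhs => rw [← hP]
    exact norm_mul_le P P
  have hP0 : P = 0 := by
    rw [← norm_eq_zero]
    nlinarith [norm_nonneg P]
  have : (1 : Mat p) - evalL (W i) x = 0 := by
    simpa [P] using hP0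
  exact (sub_eq_zero.1 this).symm

theorem zero_mem_sysDom {W : Fin n → List (Letter n p)} (hW : ∀ i, UL (W i)) {x : Sp n p}
    (hx : sysMap W x = 0) (hd : ∀ i, ‖evalL (W i) x - 1‖ < 2) : x ∈ sysDom W := by
  intro i
  obtain ⟨hu, h1⟩ := sysMap_eq_zero hW hx
  simp [(Unitary.mem_iff.1 (hu i)).1, h1 i (hd i)]

theorem sysMap_ne_zero_frontier {W : Fin n → List (Letter n p)} (hW : ∀ i, UL (W i))
    {x : Sp n p} (hx : x ∈ frontier (sysDom W)) : sysMap W x ≠ 0 := by
  intro h0
  refine hx.2 ((isOpen_sysDom W).interior_eq.symm ▸ zero_mem_sysDom hW h0 fun i => ?_)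
  have := (closure_sysDom_subset W hx.1 i).2
  linarith

/-- The degree of a system. -/
def sysDeg (W : Fin n → List (Letter n p)) : ℤ := degree (sysMap W) (sysDom W) 0

theorem exists_solution [Nontrivial (Sp n p)] {W : Fin n → List (Letter n p)}
    (hW : ∀ i, UL (W i)) (h : sysDeg W ≠ 0) :
    ∃ x : Sp n p, (∀ j, x j ∈ unitary (Mat p)) ∧ ∀ i, evalL (W i) x = 1 := by
  by_contra hne
  apply h
  refine degree_eq_zero (isOpen_sysDom W) (isBounded_sysDom W) (contDiff_sysMap W).continuous ?_
  intro x hx h0
  obtain ⟨hu, h1⟩ := sysMap_eq_zero hW h0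
  exact hne ⟨x, hu, fun i => h1 i (by linarith [(closure_sysDom_subset W hx i).2])⟩

end Vale.Agent.P174.GR
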