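import Vale.Agent.P174.GR.Sym

noncomputable section

open Set Filter Metric Function
open scoped Topology Matrix.Norms.Frobenius ComplexConjugate

namespace Vale.Agent.P174.GR

variable {n p : ℕ}

def lettC (v : Fin n → ℂ) : Letter n p → ℂ
  | .inl _ => 1
  | .inr (j, true) => v j
  | .inr (j, false) => conj (v j)

/-- Scalar evaluation of a word with trivial constants. -/
def evC (L : List (Letter n p)) (v : Fin n → ℂ) : ℂ := (L.map (lettC v)).prod

/-- Diagonal tuples. -/
def dg : (Fin n → Fin p → ℂ) →L[ℝ] Sp n p :=
  LinearMap.toContinuousLinearMap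
    { toFun := fun a j => Matrix.diagonal (a j)
      map_add' := fun a b => by funext j; exact (Matrix.diagonal_add _ _).symm
      map_smul' := fun r a => by funext j; exact Matrix.diagonal_smul r _ }

theorem dg_apply (a : Fin n → Fin p → ℂ) (j : Fin n) : dg a j = Matrix.diagonal (a j) := rfl

theorem evalL_dg {L : List (Letter n p)} (hL : OneL L) (a : Fin n → Fin p → ℂ) :
    evalL L (dg a) = Matrix.diagonal fun q => evC L fun j => a j q := by
  induction L with
  | nil => simp [evC]
  | cons l L ih =>
    rw [evalL_cons, ih fun c hc => hL c (List.mem_cons_of_mem _ hc)]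
    have hl : letterEval (dg a) l = Matrix.diagonal fun q => lettC (fun j => a j q) l := by
      rcases l with c | ⟨j, b⟩
      · simp [letterEval, lettC, hL c List.mem_cons_self]
      · cases b
        · simp [letterEval, lettC, dg_apply, Matrix.star_eq_conjTranspose,
            Matrix.diagonal_conjTranspose]
        · simp [letterEval, lettC, dg_apply]
    rw [hl, Matrix.diagonal_mul_diagonal]
    simp [evC]

theorem evalL_smul {L : List (Letter n p)} (hL : OneL L) (v : Fin n → ℂ) (x : Sp n p) :
    evalL L (fun j => v j • x j) = evC L v • evalL L x := by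
  induction L with
  | nil => simp [evC]
  | cons l L ih =>
    rw [evalL_cons, evalL_cons, ih fun c hc => hL c (List.mem_cons_of_mem _ hc)]
    have hl : letterEval (fun j => v j • x j) l = lettC v l • letterEval x l := by
      rcases l with c | ⟨j, b⟩
      · simp [letterEval, lettC]
      · cases b <;> simp [letterEval, lettC, star_smul]
    rw [hl, smul_mul_smul_comm]
    simp [evC]

theorem evC_mul (L : List (Letter n p)) (u v : Fin n → ℂ) :
    evC L (fun j => u j * v j) = evC L u * evC L v := by
  induction L with
  | nil => simp [evC]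
  | cons l L ih =>
    simp only [evC, List.map_cons, List.prod_cons] at ih ⊢
    rw [ih]
    have hl : lettC (fun j => u j * v j) l = lettC u l * lettC v l := by
      rcases l with c | ⟨j, b⟩
      · simp [lettC]
      · cases b <;> simp [lettC]
    rw [hl]; ring

theorem evC_circle (L : List (Letter n p)) (v : Fin n → Circle) :
    evC L (fun j => (v j : ℂ)) = ((∏ j, v j ^ expL L j : Circle) : ℂ) := by
  classical
  induction L with
  | nil => simp [evC, expL]
  | cons l L ih =>
    have hl : lettC (fun j => (v j : ℂ)) l = ((∏ j, v j ^ letterExp j l : Circle) : ℂ) := by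
      rcases l with c | ⟨j, b⟩
      · simp [lettC, letterExp]
      · cases b
        · rw [Finset.prod_eq_single j]
          · simp [lettC, letterExp, ← Circle.coe_inv_eq_conj]
          · intro k _ hk; simp [letterExp, Ne.symm hk]
          · simp
        · rw [Finset.prod_eq_single j]
          · simp [lettC, letterExp]
          · intro k _ hk; simp [letterExp, Ne.symm hk]
          · simp
    simp only [evC, List.map_cons, List.prod_cons] at ih ⊢
    rw [ih, hl, ← Circle.coe_mul, ← Finset.prod_mul_distrib]
    simp only [expL_cons, zpow_add]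

theorem exists_deriv_one {L : List (Letter n p)} (hL : OneL L) :
    evalL L (fun _ => (1 : Mat p)) = 1 ∧ ∃ D : Sp n p →L[ℝ] Mat p,
      HasFDerivAt (evalL L) D (fun _ => 1) ∧
      ∀ k : Sp n p, (∀ j, star (k j) = - k j) → D k = ∑ j, (expL L j : ℂ) • k j := by
  classical
  induction L with
  | nil => exact ⟨rfl, 0, hasFDerivAt_const _ _, fun k _ => by simp [expL]⟩
  | cons l L ih =>
    obtain ⟨hv, D, hD, hDk⟩ := ih fun c hc => hL c (List.mem_cons_of_mem _ hc)
    obtain ⟨hlv, Dl, hDl, hDlk⟩ : letterEval (fun _ => (1 : Mat p)) l = 1 ∧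
        ∃ Dl : Sp n p →L[ℝ] Mat p, HasFDerivAt (fun x => letterEval x l) Dl (fun _ => 1) ∧
          ∀ k : Sp n p, (∀ j, star (k j) = - k j) →
            Dl k = ∑ j, (letterExp j l : ℂ) • k j := by
      rcases l with c | ⟨j, b⟩
      · exact ⟨hL c List.mem_cons_self, 0, hasFDerivAt_const _ _,
          fun k _ => by simp [letterExp]⟩
      · cases b
        · refine ⟨by simp [letterEval],
            ((starL' ℝ : Mat p ≃L[ℝ] Mat p) : Mat p →L[ℝ] Mat p).comp
              (ContinuousLinearMap.proj (φ := fun _ : Fin n => Mat p) j), ?_, fun k hk => ?_⟩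
          · exact (((starL' ℝ : Mat p ≃L[ℝ] Mat p) : Mat p →L[ℝ] Mat p).comp
              (ContinuousLinearMap.proj (φ := fun _ : Fin n => Mat p) j)).hasFDerivAt
          · rw [Finset.sum_eq_single j]
            · simp [letterExp, hk j]
            · intro i _ hi; simp [letterExp, Ne.symm hi]
            · simp
        · refine ⟨by simp [letterEval],
            ContinuousLinearMap.proj (φ := fun _ : Fin n => Mat p) j, ?_, fun k _ => ?_⟩
          · exact (ContinuousLinearMap.proj (R := ℝ)
              (φ := fun _ : Fin n => Mat p) j).hasFDerivAt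
          · rw [Finset.sum_eq_single j]
            · simp [letterExp]
            · intro i _ hi; simp [letterExp, Ne.symm hi]
            · simp
    refine ⟨by rw [evalL_cons, hlv, hv, one_mul], Dl + D, ?_, fun k hk => ?_⟩
    · have h := hDl.mul' hD
      simp only [hlv, hv] at h
      refine HasFDerivAt.congr_fderiv h ?_
      ext1 k
      change (1 : Mat p) * D k + Dl k * 1 = Dl k + D k
      rw [one_mul, mul_one, add_comm]
    · simp only [ContinuousLinearMap.add_apply, hDlk k hk, hDk k hk, expL_cons, Int.cast_add,
        add_smul, Finset.sum_add_distrib]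

/-- The derivative at the identity is injective. -/
theorem deriv_one_injective {W : Fin n → List (Letter n p)} (hW : ∀ i, OneL (W i))
    (hdet : (Matrix.of fun i j => expL (W i) j).det ≠ 0) :
    ∀ k, fderiv ℝ (sysMap W) (fun _ => 1) k = 0 → k = 0 := by
  classical
  intro k hk
  let st : Mat p →L[ℝ] Mat p := ((starL' ℝ : Mat p ≃L[ℝ] Mat p) : Mat p →L[ℝ] Mat p)
  choose hv D hD hDk using fun i => exists_deriv_one (hW i)
  let one : Sp n p := fun _ => 1
  have hcomp : ∀ i, HasFDerivAt (fun x => sysMap W x i)
      ((D i - st.comp (D i)) + (st.comp (ContinuousLinearMap.proj (φ := fun _ : Fin n => Mat p) i) +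
        ContinuousLinearMap.proj (φ := fun _ : Fin n => Mat p) i)) one := by
    intro i
    have hp := (ContinuousLinearMap.proj (R := ℝ) (φ := fun _ : Fin n => Mat p) i).hasFDerivAt (x := one)
    have h1 : HasFDerivAt (fun x => evalL (W i) x - star (evalL (W i) x)) (D i - st.comp (D i)) one :=
      (hD i).sub (st.hasFDerivAt.comp one (hD i))
    have h2 := ((st.hasFDerivAt.comp one hp).mul' hp).sub_const (1 : Mat p)
    have h3 := h1.add h2
    refine HasFDerivAt.congr_fderiv h3 ?_
    ext1 k
    change (D i k - st (D i k)) + (star (1 : Mat p) * k i + star (k i) * 1) =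
      (D i k - st (D i k)) + (star (k i) + k i)
    rw [star_one, one_mul, mul_one, add_comm (k i)]
  have hF : fderiv ℝ (sysMap W) one = ContinuousLinearMap.pi fun i =>
      ((D i - st.comp (D i)) + (st.comp (ContinuousLinearMap.proj (φ := fun _ : Fin n => Mat p) i) +
        ContinuousLinearMap.proj (φ := fun _ : Fin n => Mat p) i)) :=
    (hasFDerivAt_pi.2 hcomp).fderiv
  rw [hF] at hk
  have hsplit : ∀ i, star (k i) + k i = 0 ∧ D i k - star (D i k) = 0 := by
    intro i
    have h1 : (D i k - star (D i k)) + (star (k i) + k i) = 0 := congrFun hk i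
    have h2 := congrArg star h1
    simp only [star_add, star_sub, star_star, star_zero] at h2
    have h3 : (2 : ℝ) • (star (k i) + k i) = 0 := by
      calc (2 : ℝ) • (star (k i) + k i) = ((D i k - star (D i k)) + (star (k i) + k i)) +
            ((star (D i k) - D i k) + (k i + star (k i))) := by rw [two_smul]; abel
        _ = 0 := by rw [h1, h2, add_zero]
    have h4 := (smul_eq_zero.1 h3).resolve_left two_ne_zero
    exact ⟨h4, by simpa [h4] using h1⟩
  have hskew : ∀ j, star (k j) = - k j := fun j => eq_neg_of_add_eq_zero_left (hsplit j).1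
  have hsum : ∀ i, ∑ j, (expL (W i) j : ℂ) • k j = 0 := by
    intro i
    have h := (hsplit i).2
    rw [hDk i k hskew, star_sum] at h
    simp only [star_smul, RCLike.star_def, map_intCast, hskew, smul_neg, Finset.sum_neg_distrib,
      sub_neg_eq_add] at h
    rw [← two_smul ℝ] at h
    exact (smul_eq_zero.1 h).resolve_left two_ne_zero
  funext j; ext a b
  have hA : ((Matrix.of fun i j => expL (W i) j).map (Int.castRingHom ℂ)).det ≠ 0 := by
    rw [← RingHom.mapMatrix_apply, ← RingHom.map_det]
    simpa using hdet
  have := Matrix.eq_zero_of_mulVec_eq_zero hA (v := fun j => k j a b) (by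
    funext i
    have h := congrFun (congrFun (hsum i) a) b
    simpa [Matrix.mulVec, dotProduct, Matrix.sum_apply] using h)
  exact congrFun this j

end Vale.Agent.P174.GR
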