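import Vale.Agent.P174.GR.Scalar

noncomputable section

open Set Filter Metric Function
open scoped Topology Matrix.Norms.Frobenius ComplexConjugate

namespace Vale.Agent.P174.GR

variable {n p q : ℕ} [Fact q.Prime]

/-- The sign pattern of a pair of indices. -/
def sgn (a b : Fin p) : ℂ := if a < b then -Complex.I else Complex.I

/-- Multiplication by the sign pattern. -/
def jj : Sp n p →ₗ[ℝ] Sp n p where
  toFun x j := Matrix.of fun a b => sgn a b * x j a b
  map_add' x y := by funext j; ext a b; simp [mul_add]
  map_smul' r x := by funext j; ext a b; simp [mul_left_comm]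

theorem jj_apply (x : Sp n p) (j : Fin n) (a b : Fin p) : jj x j a b = sgn a b * x j a b := rfl

/-- One entry. -/
def single (j : Fin n) (a b : Fin p) : ℂ →ₗ[ℝ] Sp n p where
  toFun z := Pi.single j (Matrix.single a b z)
  map_add' z w := by rw [← Pi.single_add, ← Matrix.single_add]
  map_smul' r z := by
    rw [RingHom.id_apply, ← Pi.single_smul, Matrix.smul_single]

theorem single_apply (j i : Fin n) (a b c d : Fin p) (z : ℂ) :
    single j a b z i c d = if i = j then (if a = c ∧ b = d then z else 0) else 0 := by
  by_cases h : i = j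
  · subst h; simp [single, Matrix.single, Pi.single_eq_same]
  · simp [single, Pi.single_eq_of_ne h, h]

theorem sum_single (x : Sp n p) : x = ∑ j, ∑ a, ∑ b, single j a b (x j a b) := by
  funext i; ext c d
  simp only [Finset.sum_apply, Matrix.sum_apply, single_apply]
  rw [Finset.sum_eq_single i]
  · rw [Finset.sum_eq_single c, Finset.sum_eq_single d]
    · simp
    · intro b _ hb; simp [hb]
    · simp
    · intro a _ ha; simp [ha]
    · simp
  · intro j _ hj; simp [Ne.symm hj]
  · simp

/-- A real linear map intertwining two non-real rotations respects or reverses orientation. -/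
theorem linear_map_rot (f : ℂ →ₗ[ℝ] ℂ) {χ χ' : ℂ} (hχ : conj χ ≠ χ)
    (h : ∀ z, f (χ * z) = χ' * f z) :
    (χ' = χ ∧ ∀ z, f (Complex.I * z) = Complex.I * f z) ∨
      (χ' = conj χ ∧ ∀ z, f (Complex.I * z) = -(Complex.I * f z)) ∨ (∀ z, f z = 0) := by
  let α : ℂ := (f 1 - Complex.I * f Complex.I) / 2
  let β : ℂ := (f 1 + Complex.I * f Complex.I) / 2
  have hf : ∀ z, f z = α * z + β * conj z := by
    intro z
    have hz : f z = (z.re : ℂ) * f 1 + (z.im : ℂ) * f Complex.I := by
      conv_lhs => rw [show z = z.re • (1 : ℂ) + z.im • Complex.I by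
        apply Complex.ext <;> simp]
      rw [map_add, map_smul, map_smul, Complex.real_smul, Complex.real_smul]
    rw [hz]
    have hI := Complex.I_sq
    have h1 : (z : ℂ) = z.re + z.im * Complex.I := (Complex.re_add_im z).symm
    have h2 : conj z = (z.re : ℂ) - z.im * Complex.I := by
      apply Complex.ext <;> simp
    calc (z.re : ℂ) * f 1 + (z.im : ℂ) * f Complex.I
        = α * ((z.re : ℂ) + z.im * Complex.I) + β * ((z.re : ℂ) - z.im * Complex.I) := by
          simp only [α, β]; linear_combination ((z.im : ℂ) * f Complex.I) * hI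
      _ = α * z + β * conj z := by rw [← h1, ← h2]
  have e1 := h 1
  have e2 := h Complex.I
  simp only [hf, map_mul, map_one, Complex.conj_I, mul_one] at e1 e2
  have hI0 : Complex.I ≠ 0 := Complex.I_ne_zero
  have hα : α * (χ - χ') = 0 := by
    have h3 : Complex.I * (α * (χ - χ') - β * (conj χ - χ')) = 0 := by linear_combination e2
    have h4 := (mul_eq_zero.1 h3).resolve_left hI0
    have h5 : (2 : ℂ) * (α * (χ - χ')) = 0 := by linear_combination h4 + e1
    exact (mul_eq_zero.1 h5).resolve_left two_ne_zero
  have hβ : β * (conj χ - χ') = 0 := by linear_combination e1 - hα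
  by_cases ha : α = 0
  · by_cases hb : β = 0
    · exact Or.inr (Or.inr fun z => by simp [hf, ha, hb])
    · refine Or.inr (Or.inl ⟨(sub_eq_zero.1 ((mul_eq_zero.1 hβ).resolve_left hb)).symm,
        fun z => ?_⟩)
      simp only [hf, ha, map_mul, Complex.conj_I]; ring
  · have h1 := (sub_eq_zero.1 ((mul_eq_zero.1 hα).resolve_left ha)).symm
    have hb : β = 0 := by
      rw [h1] at hβ
      exact (mul_eq_zero.1 hβ).resolve_right (sub_ne_zero.2 hχ)
    refine Or.inl ⟨h1, fun z => ?_⟩
    simp only [hf, hb]; ring

theorem idx_sub_int (a b : Fin p) :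
    idx q a - idx q b = ((((a : ℕ) : ℤ) - (b : ℕ) : ℤ) : ZMod q) := by
  simp [idx]

/-- Equality of clock weights of off-diagonal entries preserves the order. -/
theorem weight_order (hpq : 2 * p < q) {a b c d : Fin p}
    (h : idx q c - idx q d = idx q a - idx q b) : (a < b ↔ c < d) := by
  rw [idx_sub_int, idx_sub_int, ZMod.intCast_eq_intCast_iff_dvd_sub] at h
  have ha := a.2; have hb := b.2; have hc := c.2; have hd := d.2
  have h0 := Int.eq_zero_of_dvd_of_natAbs_lt_natAbs h (by omega)
  rw [Fin.lt_def, Fin.lt_def]
  omega

/-- Anything commuting with the clock commutes with the sign pattern off the diagonal. -/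
theorem commute_jj (hpq : 2 * p < q) (T : Sp n p →ₗ[ℝ] Sp n p)
    (hT : ∀ x, T (piIso (clock q) x) = piIso (clock q) (T x)) (x : Sp n p) :
    T (jj (offP x)) = jj (T (offP x)) := by
  classical
  have key : ∀ j a b, a ≠ b → ∀ z, T (jj (single j a b z)) = jj (T (single j a b z)) := by
    intro j a b hab z
    funext i; ext c d
    let f : ℂ →ₗ[ℝ] ℂ :=
      { toFun := fun z => T (single j a b z) i c d
        map_add' := fun z w => by simp
        map_smul' := fun r z => by
          rw [map_smul, map_smul]; rfl }
    let χ : ℂ := (ZMod.toCircle (idx q a - idx q b) : ℂ)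
    let χ' : ℂ := (ZMod.toCircle (idx q c - idx q d) : ℂ)
    have hsc : ∀ z, piIso (clock q) (single j a b z) = single j a b (χ * z) := by
      intro z
      funext i'; ext u v
      simp only [piIso_apply, clock_apply, single_apply]
      split_ifs with h1 h2
      · rw [← h2.1, ← h2.2]
      · simp
      · simp
    have hrel : ∀ z, f (χ * z) = χ' * f z := by
      intro z
      change T (single j a b (χ * z)) i c d = χ' * T (single j a b z) i c d
      rw [← hsc, hT]
      rfl
    have hs : jj (single j a b z) = single j a b (sgn a b * z) := by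
      funext i'; ext u v
      simp only [jj_apply, single_apply]
      split_ifs with h1 h2
      · rw [← h2.1, ← h2.2]
      · simp
      · simp
    rw [hs, jj_apply]
    change f (sgn a b * z) = sgn c d * f z
    have hne : idx q a - idx q b ≠ 0 := fun h => hab (idx_injective (by omega) (sub_eq_zero.1 h))
    have hχ : conj χ ≠ χ := by
      intro h
      simp only [χ] at h
      rw [← Circle.coe_inv_eq_conj, ← AddChar.map_neg_eq_inv, Circle.coe_inj] at h
      have h1 := ZMod.injective_toCircle h
      rw [idx_sub_int, ← Int.cast_neg, ZMod.intCast_eq_intCast_iff_dvd_sub] at h1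
      have ha := a.2; have hb := b.2
      have h0 := Int.eq_zero_of_dvd_of_natAbs_lt_natAbs h1 (by omega)
      exact hab (Fin.ext (by omega))
    have hneg : ∀ w : ℂ, f (-w) = - f w := fun w => map_neg f w
    rcases linear_map_rot f hχ hrel with ⟨h1, h2⟩ | ⟨h1, h2⟩ | h1
    · have h3 : idx q c - idx q d = idx q a - idx q b :=
        ZMod.injective_toCircle (Circle.coe_injective h1)
      have h4 := weight_order hpq h3
      by_cases hlt : a < b
      · simp only [sgn, if_pos hlt, if_pos (h4.1 hlt), neg_mul, hneg, h2]
      · simp only [sgn, if_neg hlt, if_neg (mt h4.2 hlt), h2]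
    · have h3 : idx q c - idx q d = idx q b - idx q a := by
        apply ZMod.injective_toCircle
        apply Circle.coe_injective
        refine h1.trans ?_
        rw [← Circle.coe_inv_eq_conj, ← AddChar.map_neg_eq_inv, neg_sub]
      have h4 := weight_order hpq h3
      rcases lt_or_gt_of_ne hab with hlt | hgt
      · have h5 : ¬ c < d := fun h => (lt_asymm hlt) (h4.2 h)
        simp only [sgn, if_pos hlt, if_neg h5, neg_mul, hneg, h2, neg_neg]
      · have h5 : c < d := h4.1 hgt
        simp only [sgn, if_neg hgt.not_gt, if_pos h5, h2, neg_mul]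
    · simp [h1]
  rw [sum_single (offP x)]
  simp only [map_sum]
  refine Finset.sum_congr rfl fun j _ => Finset.sum_congr rfl fun a _ =>
    Finset.sum_congr rfl fun b _ => ?_
  by_cases hab : a = b
  · simp [offP_apply, hab]
  · exact key j a b hab _

/-- Conjugating the entries above the diagonal. -/
def flipConj : Sp n p ≃ₗ[ℝ] Sp n p :=
  LinearEquiv.ofInvolutive
    { toFun := fun x j => Matrix.of fun a b => if a < b then conj (x j a b) else x j a b
      map_add' := fun x y => by funext j; ext a b; simp; split_ifs <;> simp
      map_smul' := fun r x => by funext j; ext a b; by_cases h : a < b <;> simp [h] }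
    fun x => by funext j; ext a b; by_cases h : a < b <;> simp [h]

theorem flipConj_apply (x : Sp n p) (j : Fin n) (a b : Fin p) :
    flipConj x j a b = if a < b then conj (x j a b) else x j a b := rfl

theorem flipConj_jj (x : Sp n p) : flipConj (jj x) = Complex.I • flipConj x := by
  funext j; ext a b
  simp only [flipConj_apply, jj_apply, sgn, Pi.smul_apply, Matrix.smul_apply, smul_eq_mul]
  split_ifs <;> simp

/-- A map commuting with the sign pattern has nonnegative determinant. -/
theorem det_nonneg_of_commute (U : Sp n p →ₗ[ℝ] Sp n p) (h : ∀ x, U (jj x) = jj (U x)) :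
    0 ≤ LinearMap.det U := by
  let V : Sp n p →ₗ[ℝ] Sp n p := flipConj.toLinearMap ∘ₗ U ∘ₗ flipConj.symm.toLinearMap
  have hI : ∀ y, V (Complex.I • y) = Complex.I • V y := by
    intro y
    obtain ⟨x, rfl⟩ := flipConj.surjective y
    simp only [V, LinearMap.comp_apply, LinearEquiv.coe_coe, LinearEquiv.symm_apply_apply]
    rw [← flipConj_jj, LinearEquiv.symm_apply_apply, h, flipConj_jj]
  let VC : Sp n p →ₗ[ℂ] Sp n p :=
    { toFun := V
      map_add' := V.map_add
      map_smul' := fun c y => by
        have hdec : ∀ w : Sp n p, c • w = c.re • w + c.im • (Complex.I • w) := by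
          intro w
          conv_lhs => rw [← Complex.re_add_im c]
          rw [add_smul, mul_smul, Complex.coe_smul, Complex.coe_smul]
        simp only [RingHom.id_apply]
        rw [hdec y, map_add, map_smul, map_smul, hI, ← hdec] }
  have h1 : LinearMap.det V = LinearMap.det U := LinearMap.det_conj U flipConj
  have h2 : LinearMap.det (VC.restrictScalars ℝ) = Complex.normSq (LinearMap.det VC) := by
    rw [LinearMap.det_restrictScalars, Algebra.norm_complex_apply]
  have h3 : VC.restrictScalars ℝ = V := by ext1 y; rfl
  rw [h3, h1] at h2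
  rw [h2]
  exact Complex.normSq_nonneg _

/-- The determinant of a map trivial on the diagonal, equal to a clock equivariant one off it. -/
theorem det_offdiag_nonneg (hpq : 2 * p < q) (T : Sp n p →ₗ[ℝ] Sp n p)
    (hT : ∀ x, T (piIso (clock q) x) = piIso (clock q) (T x)) :
    0 ≤ LinearMap.det (LinearMap.id - (offP : Sp n p →L[ℝ] Sp n p).toLinearMap +
      T ∘ₗ (offP : Sp n p →L[ℝ] Sp n p).toLinearMap) := by
  refine det_nonneg_of_commute _ fun x => ?_
  have hoff : ∀ y : Sp n p, offP (jj y) = jj (offP y) := by
    intro y
    funext j; ext a b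
    simp only [offP_apply, jj_apply]
    split_ifs <;> simp
  simp only [LinearMap.add_apply, LinearMap.sub_apply, LinearMap.id_apply, LinearMap.comp_apply,
    ContinuousLinearMap.coe_coe, map_add, map_sub]
  rw [hoff, commute_jj hpq T hT]

end Vale.Agent.P174.GR
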