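import Vale.Agent.P174.GR.Poly

noncomputable section

open Set Filter Metric Function
open scoped Topology Matrix.Norms.Frobenius ComplexConjugate

namespace Vale.Agent.P174.GR

variable {n p q : ℕ} [Fact q.Prime]

/-- An index read modulo `q`. -/
def idx (q : ℕ) (a : Fin p) : ZMod q := (a : ℕ)

omit [Fact q.Prime] in
theorem idx_injective (h : p ≤ q) : Function.Injective (idx (p := p) q) := by
  intro a b hab
  have h1 := congrArg ZMod.val hab
  simp only [idx, ZMod.val_natCast] at h1
  rw [Nat.mod_eq_of_lt (a.2.trans_le h), Nat.mod_eq_of_lt (b.2.trans_le h)] at h1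
  exact Fin.ext h1

/-- Twisting entries by a character of the difference of the indices. -/
def clock (q : ℕ) [Fact q.Prime] : Mat p ≃ₗᵢ[ℝ] Mat p where
  toFun x := Matrix.of fun a b => (ZMod.toCircle (idx q a - idx q b) : ℂ) * x a b
  invFun x := Matrix.of fun a b => (ZMod.toCircle (idx q b - idx q a) : ℂ) * x a b
  map_add' x y := by ext a b; simp [mul_add]
  map_smul' r x := by ext a b; simp [mul_left_comm]
  left_inv x := by
    ext a b
    simp [← mul_assoc, ← Circle.coe_mul, ← AddChar.map_add_eq_mul]
  right_inv x := by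
    ext a b
    simp [← mul_assoc, ← Circle.coe_mul, ← AddChar.map_add_eq_mul]
  norm_map' x := by
    rw [Matrix.frobenius_norm_def, Matrix.frobenius_norm_def]
    simp [Circle.norm_coe]

theorem clock_apply (x : Mat p) (a b : Fin p) :
    clock q x a b = (ZMod.toCircle (idx q a - idx q b) : ℂ) * x a b := rfl

/-- A linear map respecting product, unit and adjoint. -/
def Respects (φ : Mat p → Mat p) : Prop :=
  φ 1 = 1 ∧ (∀ x y, φ (x * y) = φ x * φ y) ∧ ∀ x, φ (star x) = star (φ x)

theorem clock_respects : Respects (clock (p := p) q) := by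
  refine ⟨?_, fun x y => ?_, fun x => ?_⟩
  · ext a b
    by_cases h : a = b
    · subst h; simp [clock_apply]
    · simp [clock_apply, h]
  · ext a b
    simp only [clock_apply, Matrix.mul_apply, Finset.mul_sum]
    refine Finset.sum_congr rfl fun c _ => ?_
    rw [show idx q a - idx q b = (idx q a - idx q c) + (idx q c - idx q b) by abel,
      AddChar.map_add_eq_mul, Circle.coe_mul]
    ring
  · ext a b
    simp only [clock_apply, Matrix.star_apply, RCLike.star_def, map_mul]
    rw [← Circle.coe_inv_eq_conj, ← AddChar.map_neg_eq_inv, neg_sub]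

theorem evalL_respects {φ : Mat p → Mat p} (hφ : Respects φ) {L : List (Letter n p)} (hL : OneL L)
    (x : Sp n p) : evalL L (fun j => φ (x j)) = φ (evalL L x) := by
  induction L with
  | nil => simp [hφ.1]
  | cons l L ih =>
    rw [evalL_cons, evalL_cons, ih fun c hc => hL c (List.mem_cons_of_mem _ hc), hφ.2.1]
    congr 1
    rcases l with c | ⟨j, b⟩
    · simp [letterEval, hL c List.mem_cons_self, hφ.1]
    · cases b <;> simp [letterEval, hφ.2.2]

/-- Apply an isometry in every coordinate. -/
def piIso (φ : Mat p ≃ₗᵢ[ℝ] Mat p) : Sp n p ≃ₗᵢ[ℝ] Sp n p where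
  toFun x := fun j => φ (x j)
  invFun x := fun j => φ.symm (x j)
  map_add' x y := by funext j; simp
  map_smul' r x := by funext j; simp
  left_inv x := by funext j; simp
  right_inv x := by funext j; simp
  norm_map' x := by
    simp [Pi.norm_def]

@[simp] theorem piIso_apply (φ : Mat p ≃ₗᵢ[ℝ] Mat p) (x : Sp n p) (j : Fin n) :
    piIso φ x j = φ (x j) := rfl

theorem sysMap_respects (φ : Mat p ≃ₗᵢ[ℝ] Mat p) (hφ : Respects φ)
    {W : Fin n → List (Letter n p)} (hW : ∀ i, OneL (W i)) (x : Sp n p) :
    sysMap W (piIso φ x) = piIso φ (sysMap W x) := by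
  funext i
  have h := evalL_respects hφ (hW i) x
  change (evalL (W i) (fun j => φ (x j)) - star (evalL (W i) fun j => φ (x j))) +
      (star (φ (x i)) * φ (x i) - 1) =
    φ ((evalL (W i) x - star (evalL (W i) x)) + (star (x i) * x i - 1))
  rw [h, map_add, map_sub, map_sub, hφ.2.2, hφ.2.1, hφ.2.2, hφ.1]

theorem sysDom_respects (φ : Mat p ≃ₗᵢ[ℝ] Mat p) (hφ : Respects φ)
    {W : Fin n → List (Letter n p)} (hW : ∀ i, OneL (W i)) {x : Sp n p} (hx : x ∈ sysDom W) :
    piIso φ x ∈ sysDom W := by
  intro i
  have h := evalL_respects hφ (hW i) x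
  obtain ⟨h1, h2⟩ := hx i
  constructor
  · change ‖star (φ (x i)) * φ (x i) - 1‖ < 1 / 2
    rw [← hφ.2.2, ← hφ.2.1, ← hφ.1, ← map_sub, φ.norm_map]
    exact h1
  · change ‖evalL (W i) (fun j => φ (x j)) - 1‖ < 1
    rw [h, ← hφ.1, ← map_sub, φ.norm_map]
    exact h2

theorem clock_iterate (x : Mat p) : (⇑(clock (p := p) q))^[q] x = x := by
  have : ∀ k : ℕ, ∀ a b, (⇑(clock (p := p) q))^[k] x a b =
      (ZMod.toCircle (k • (idx q a - idx q b)) : ℂ) * x a b := by
    intro k
    induction k with
    | zero => simp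
    | succ k ih =>
      intro a b
      rw [iterate_succ_apply', clock_apply, ih, succ_nsmul', AddChar.map_add_eq_mul,
        Circle.coe_mul, mul_assoc]
  ext a b
  rw [this]
  simp

theorem piIso_iterate (φ : Mat p ≃ₗᵢ[ℝ] Mat p) (k : ℕ) :
    ∀ (x : Sp n p) (j : Fin n), (⇑(piIso (n := n) φ))^[k] x j = (⇑φ)^[k] (x j) := by
  induction k with
  | zero => intro x j; rfl
  | succ k ih => intro x j; rw [iterate_succ_apply, iterate_succ_apply, ih]; rfl

/-- The off-diagonal part in each coordinate. -/
def offP : Sp n p →L[ℝ] Sp n p :=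
  LinearMap.toContinuousLinearMap
    { toFun := fun x j => Matrix.of fun a b => if a = b then 0 else x j a b
      map_add' := fun x y => by funext j; ext a b; simp; split_ifs <;> simp
      map_smul' := fun r x => by funext j; ext a b; simp }

theorem offP_apply (x : Sp n p) (j : Fin n) (a b : Fin p) :
    offP x j a b = if a = b then 0 else x j a b := rfl

theorem offP_clock (x : Sp n p) : offP (piIso (clock q) x) = piIso (clock q) (offP x) := by
  funext j; ext a b
  simp only [offP_apply, piIso_apply, clock_apply]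
  split_ifs <;> simp

theorem offP_eq_zero_of_fixed (hpq : p ≤ q) {x : Sp n p} (h : piIso (clock q) x = x) :
    offP x = 0 := by
  funext j; ext a b
  simp only [offP_apply, Pi.zero_apply, Matrix.zero_apply]
  split_ifs with hab
  · rfl
  · have h1 := congrFun (congrFun (congrFun h j) a) b
    simp only [piIso_apply, clock_apply] at h1
    have hne : (ZMod.toCircle (idx q a - idx q b) : ℂ) - 1 ≠ 0 := by
      rw [sub_ne_zero, Circle.coe_eq_one.ne]
      intro h2
      exact hab (idx_injective hpq
        (sub_eq_zero.1 (ZMod.injective_toCircle (by rw [h2, AddChar.map_zero_eq_one]))))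
    exact (mul_eq_zero.1 (show ((ZMod.toCircle (idx q a - idx q b) : ℂ) - 1) * x j a b = 0 by
      rw [sub_mul, h1, one_mul, sub_self])).resolve_left hne

theorem clock_fixed_of_offP {x : Sp n p} (h : offP x = 0) : piIso (clock q) x = x := by
  funext j; ext a b
  have h1 := congrFun (congrFun (congrFun h j) a) b
  simp only [offP_apply, Pi.zero_apply, Matrix.zero_apply] at h1
  simp only [piIso_apply, clock_apply]
  by_cases hab : a = b
  · subst hab; simp
  · rw [if_neg hab] at h1; simp [h1]

theorem offP_eq_self_of_range (hpq : p ≤ q) (x : Sp n p) :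
    ∃ m : Sp n p, piIso (clock q) m - m = offP x := by
  refine ⟨fun j => Matrix.of fun a b =>
    if a = b then 0 else x j a b / ((ZMod.toCircle (idx q a - idx q b) : ℂ) - 1), ?_⟩
  funext j; ext a b
  simp only [Pi.sub_apply, Matrix.sub_apply, piIso_apply, clock_apply, offP_apply, Matrix.of_apply]
  split_ifs with hab
  · simp
  · have hne : (ZMod.toCircle (idx q a - idx q b) : ℂ) - 1 ≠ 0 := by
      rw [sub_ne_zero, Circle.coe_eq_one.ne]
      intro h2
      exact hab (idx_injective hpq
        (sub_eq_zero.1 (ZMod.injective_toCircle (by rw [h2, AddChar.map_zero_eq_one]))))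
    field_simp

theorem offP_range_fixed (m : Sp n p) : offP (piIso (clock q) m - m) = piIso (clock q) m - m := by
  funext j; ext a b
  simp only [offP_apply, Pi.sub_apply, Matrix.sub_apply, piIso_apply, clock_apply]
  split_ifs with hab
  · subst hab; simp
  · rfl

theorem norm_offP_le (x : Sp n p) : ‖offP x‖ ≤ ‖x‖ := by
  rw [pi_norm_le_iff_of_nonneg (norm_nonneg _)]
  intro j
  refine le_trans ?_ (norm_le_pi_norm x j)
  rw [Matrix.frobenius_norm_def, Matrix.frobenius_norm_def]
  refine Real.rpow_le_rpow (by positivity) ?_ (by norm_num)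
  refine Finset.sum_le_sum fun a _ => Finset.sum_le_sum fun b _ => ?_
  rw [offP_apply]
  split_ifs with h
  · simp only [norm_zero]
    exact (le_of_eq (Real.zero_rpow two_ne_zero)).trans (Real.rpow_nonneg (norm_nonneg _) _)
  · exact le_rfl

end Vale.Agent.P174.GR
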